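import Vale.Agent.P216.L250.Energy

/-!
# The loop space `LM` and its energy sublevels `XE s`
-/

namespace Vale.Agent.P216.L250

open Set Filter Topology

/-- Loops in `M`, with the sup metric. -/
abbrev LM (M : Type*) [MetricSpace M] : Type _ := C(AddCircle (1 : ℝ), M)

variable {M : Type*} [MetricSpace M]

/-- The 1-periodic function of a loop. -/
def fn (g : LM M) (t : ℝ) : M := g (t : AddCircle (1 : ℝ))

theorem fn_periodic (g : LM M) : Function.Periodic (fn g) 1 := fun t => by
  simp [fn]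

theorem continuous_fn (g : LM M) : Continuous (fn g) :=
  g.continuous.comp (AddCircle.continuous_mk' 1)

/-- The loop of a continuous 1-periodic function. -/
def ofFn (f : ℝ → M) (hf : Continuous f) (hp : Function.Periodic f 1) : LM M :=
  ⟨hp.lift, continuous_quot_lift _ hf⟩

@[simp] theorem fn_ofFn (f : ℝ → M) (hf : Continuous f) (hp : Function.Periodic f 1) (t : ℝ) :
    fn (ofFn f hf hp) t = f t := rfl

theorem ext_fn {g g' : LM M} (h : ∀ t, fn g t = fn g' t) : g = g' := by
  ext x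
  induction x using QuotientAddGroup.induction_on with
  | H t => exact h t

theorem dist_fn_le (g g' : LM M) (t : ℝ) : dist (fn g t) (fn g' t) ≤ dist g g' :=
  ContinuousMap.dist_apply_le_dist _

theorem dist_le_iff {g g' : LM M} {C : ℝ} (hC : 0 ≤ C) :
    dist g g' ≤ C ↔ ∀ t, dist (fn g t) (fn g' t) ≤ C := by
  rw [ContinuousMap.dist_le hC]
  refine ⟨fun h t => h _, fun h x => ?_⟩
  induction x using QuotientAddGroup.induction_on with
  | H t => exact h t

/-- It is enough to compare on `[0, 1)`. -/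
theorem dist_le_of_Ico {g g' : LM M} {C : ℝ} (hC : 0 ≤ C)
    (h : ∀ t ∈ Ico (0 : ℝ) 1, dist (fn g t) (fn g' t) ≤ C) : dist g g' ≤ C := by
  rw [dist_le_iff hC]
  intro t
  have h1 := (fn_periodic g).sub_zsmul_eq (x := t) ⌊t⌋
  have h2 := (fn_periodic g').sub_zsmul_eq (x := t) ⌊t⌋
  simp only [zsmul_eq_mul, mul_one] at h1 h2
  rw [← h1, ← h2]
  exact h _ ⟨Int.fract_nonneg t, Int.fract_lt_one t⟩

/-- Loops of energy at most `s ^ 2`. -/
def XE (M : Type*) [MetricSpace M] (s : ℝ) : Set (LM M) := {g | HasE (fn g) (s ^ 2)}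

theorem mem_XE {s : ℝ} {g : LM M} : g ∈ XE M s ↔ HasE (fn g) (s ^ 2) := Iff.rfl

theorem XE_mono {s s' : ℝ} (h0 : 0 ≤ s) (h : s ≤ s') : XE M s ⊆ XE M s' :=
  fun _ hg => HasE.mono hg (pow_le_pow_left₀ h0 h 2)

/-- Hölder bound. -/
theorem dist_fn_le_of_mem {s : ℝ} {g : LM M} (hg : g ∈ XE M s) (h0 : 0 ≤ s) (t t' : ℝ) :
    dist (fn g t) (fn g t') ≤ s * Real.sqrt |t - t'| := by
  wlog hle : t ≤ t' generalizing t t'
  · rw [dist_comm, abs_sub_comm]
    exact this t' t (le_of_not_ge hle)
  rw [abs_of_nonpos (sub_nonpos.2 hle), neg_sub]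
  have key : dist (fn g t) (fn g t') ^ 2 ≤ (t' - t) * s ^ 2 := by
    rcases le_total t' (t + 1) with h1 | h1
    · exact hg.holder hle h1
    · -- reduce modulo the period
      set n : ℤ := ⌊t' - t⌋ with hn
      have h2 := (fn_periodic g).sub_zsmul_eq (x := t') n
      simp only [zsmul_eq_mul, mul_one] at h2
      have h3 : t ≤ t' - n := by
        have := Int.floor_le (t' - t)
        rw [← hn] at this
        linarith
      have h4 : t' - n ≤ t + 1 := by
        have := Int.lt_floor_add_one (t' - t)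
        rw [← hn] at this
        linarith
      have h5 := HasE.holder hg h3 h4
      rw [h2] at h5
      have h6 : (0 : ℝ) ≤ n := by
        have : (0 : ℤ) ≤ n := Int.floor_nonneg.2 (by linarith)
        exact_mod_cast this
      exact h5.trans (mul_le_mul_of_nonneg_right (by linarith) (sq_nonneg s))
  have h7 : (s * Real.sqrt (t' - t)) ^ 2 = (t' - t) * s ^ 2 := by
    rw [mul_pow, Real.sq_sqrt (sub_nonneg.2 hle)]
    ring
  rw [← h7] at key
  exact (pow_le_pow_iff_left₀ dist_nonneg (mul_nonneg h0 (Real.sqrt_nonneg _)) two_ne_zero).1 key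

/-- The energy bound is closed under pointwise limits. -/
theorem hasE_of_tendsto {ι : Type*} {l : Filter ι} [l.NeBot] {G : ι → ℝ → M} {g : ℝ → M} {C : ℝ}
    (h : ∀ᶠ i in l, HasE (G i) C) (hg : ∀ t, Tendsto (fun i => G i t) l (𝓝 (g t))) :
    HasE g C := by
  classical
  let u : Ultrafilter ι := Ultrafilter.of l
  have hul : (u : Filter ι) ≤ l := Ultrafilter.of_le l
  have h' : ∀ᶠ i in (u : Filter ι), HasE (G i) C := hul h
  have hex : ∀ i, ∃ e : ℝ → ℝ, HasE (G i) C →
      e 0 = 0 ∧ (∀ a b, Cert (G i) e a b) ∧ ∀ t, e (t + 1) = e t + C := by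
    intro i
    by_cases hi : HasE (G i) C
    · obtain ⟨e, he⟩ := hi.cert
      exact ⟨e, fun _ => he⟩
    · exact ⟨fun _ => 0, fun h => absurd h hi⟩
  choose e he using hex
  -- bounds
  have hadd : ∀ i, HasE (G i) C → ∀ (n : ℤ) t, e i (t + n) = e i t + n * C := by
    intro i hi n t
    have h1 := (he i hi).2.2
    induction n using Int.induction_on generalizing t with
    | zero => simp
    | succ n ih =>
      have := ih t
      push_cast at this ⊢
      rw [← add_assoc, h1, this]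
      ring
    | pred n ih =>
      have := ih (t - 1)
      have h2 := h1 (t + (-(n : ℤ) - 1 : ℤ))
      have h3 := ih t
      push_cast at this h2 h3 ⊢
      have h4 : t + (-(n : ℝ) - 1) + 1 = t + -(n : ℝ) := by ring
      rw [h4, h3] at h2
      linarith
  have hbd : ∀ i, HasE (G i) C → ∀ t, e i t ∈ Icc (⌊t⌋ * C) ((⌊t⌋ + 1) * C) := by
    intro i hi t
    have h0 := (he i hi).1
    have h1 := hadd i hi ⌊t⌋ 0
    have h2 := hadd i hi (⌊t⌋ + 1) 0
    rw [zero_add, h0, zero_add] at h1 h2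
    have m1 := ((he i hi).2.1 (⌊t⌋ : ℝ) t).mono_fun le_rfl (Int.floor_le t) le_rfl
    have m2 := ((he i hi).2.1 t ((⌊t⌋ + 1 : ℤ) : ℝ)).mono_fun le_rfl
      (by push_cast; exact (Int.lt_floor_add_one t).le) le_rfl
    rw [h1] at m1
    rw [h2] at m2
    push_cast at m2
    exact ⟨m1, m2⟩
  have hlim : ∀ t, ∃ y, Tendsto (fun i => e i t) (u : Filter ι) (𝓝 y) := by
    intro t
    have h1 : ∀ᶠ i in (u : Filter ι), e i t ∈ Icc (⌊t⌋ * C) ((⌊t⌋ + 1) * C) :=
      h'.mono fun i hi => hbd i hi t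
    obtain ⟨y, _, hy⟩ := (isCompact_Icc (a := (⌊t⌋ : ℝ) * C) (b := (⌊t⌋ + 1) * C)).ultrafilter_le_nhds
      (u.map fun i => e i t) (le_principal_iff.2 h1)
    exact ⟨y, hy⟩
  choose E hE using hlim
  refine ⟨E, fun s t hst => ?_, fun t => ?_⟩
  · have hl := ((hg s).mono_left hul).dist ((hg t).mono_left hul)
    refine le_of_tendsto_of_tendsto (hl.pow 2) (((hE t).sub (hE s)).const_mul (t - s)) ?_
    filter_upwards [h'] with i hi
    exact (he i hi).2.1 s t s t le_rfl hst le_rfl
  · have h1 : Tendsto (fun i => e i t + C) (u : Filter ι) (𝓝 (E (t + 1))) := by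
      refine (hE (t + 1)).congr' ?_
      filter_upwards [h'] with i hi
      exact (he i hi).2.2 t
    exact tendsto_nhds_unique h1 ((hE t).add_const C)

theorem exists_rep (x y : AddCircle (1 : ℝ)) :
    ∃ t t' : ℝ, (t : AddCircle (1 : ℝ)) = x ∧ (t' : AddCircle (1 : ℝ)) = y ∧
      |t - t'| = dist x y := by
  induction x using QuotientAddGroup.induction_on with
  | H t =>
  induction y using QuotientAddGroup.induction_on with
  | H t' =>
  refine ⟨t - round (t - t'), t', ?_, rfl, ?_⟩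
  · rw [AddCircle.coe_sub]
    have : ((round (t - t') : ℝ) : AddCircle (1 : ℝ)) = 0 := by
      rw [AddCircle.coe_eq_zero_iff]
      exact ⟨round (t - t'), by simp⟩
    rw [this, sub_zero]
  · change _ = dist (t : AddCircle (1 : ℝ)) (t' : AddCircle (1 : ℝ))
    rw [dist_eq_norm, ← AddCircle.coe_sub, AddCircle.norm_eq]
    congr 1
    simp
    ring

theorem dist_apply_le_of_mem {s : ℝ} {f : AddCircle (1 : ℝ) → M}
    (hf : HasE (fun t : ℝ => f t) (s ^ 2)) (h0 : 0 ≤ s) (x y : AddCircle (1 : ℝ)) :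
    dist (f x) (f y) ≤ s * Real.sqrt (dist x y) := by
  obtain ⟨t, t', rfl, rfl, h⟩ := exists_rep x y
  rw [← h]
  wlog hle : t ≤ t' generalizing t t'
  · rw [dist_comm, abs_sub_comm]
    exact this t' t (by rw [dist_comm, abs_sub_comm, h]) (le_of_not_ge hle)
  have hd : |t - t'| ≤ 1 := by
    rw [h, dist_eq_norm]
    have := AddCircle.norm_le_half_period (1 : ℝ) one_ne_zero
      (x := ((t : AddCircle (1 : ℝ)) - (t' : AddCircle (1 : ℝ))))
    norm_num at this
    linarith
  rw [abs_of_nonpos (sub_nonpos.2 hle)] at hd ⊢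
  have key := hf.holder hle (by linarith)
  have h7 : (s * Real.sqrt (-(t - t'))) ^ 2 = (t' - t) * s ^ 2 := by
    rw [mul_pow, Real.sq_sqrt (by linarith)]
    ring
  rw [← h7] at key
  exact (pow_le_pow_iff_left₀ dist_nonneg (mul_nonneg h0 (Real.sqrt_nonneg _)) two_ne_zero).1 key

theorem tendsto_modulus (s : ℝ) : Tendsto (fun r : ℝ => s * Real.sqrt r) (𝓝 0) (𝓝 0) := by
  have : Continuous fun r : ℝ => s * Real.sqrt r := by fun_prop
  simpa using this.tendsto 0

/-- `XE M s` is compact when `M` is. -/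
theorem isCompact_XE [CompactSpace M] {s : ℝ} (h0 : 0 ≤ s) : IsCompact (XE M s) := by
  refine ArzelaAscoli.isCompact_of_equicontinuous (XE M s) ?_ ?_
  · have himg : ContinuousMap.toFun '' (XE M s) =
        {f : AddCircle (1 : ℝ) → M | HasE (fun t : ℝ => f t) (s ^ 2)} := by
      ext f
      constructor
      · rintro ⟨g, hg, rfl⟩
        exact hg
      · intro hf
        have hc : Continuous f := by
          rw [Metric.continuous_iff']
          intro x ε hε
          have h1 := (tendsto_modulus s).comp (tendsto_iff_dist_tendsto_zero.1 (tendsto_id (x := 𝓝 x)))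
          filter_upwards [h1 (gt_mem_nhds hε)] with y hy
          exact (dist_apply_le_of_mem hf h0 y x).trans_lt hy
        exact ⟨⟨f, hc⟩, hf, rfl⟩
    rw [himg]
    refine IsClosed.isCompact ?_
    refine isClosed_of_closure_subset fun f hf => ?_
    obtain ⟨u, hu, huf⟩ := mem_closure_iff_ultrafilter.1 hf
    exact hasE_of_tendsto (l := (u : Filter (AddCircle (1 : ℝ) → M)))
      (G := fun f (t : ℝ) => f t) hu
      fun t => (tendsto_pi_nhds.1 (show Tendsto id (u : Filter _) (𝓝 f) from huf)) _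
  · have := Metric.uniformEquicontinuous_of_continuity_modulus (fun r => s * Real.sqrt r)
      (tendsto_modulus s) (fun g : XE M s => (g : AddCircle (1 : ℝ) → M))
      (fun x y g => dist_apply_le_of_mem g.2 h0 x y)
    exact this.equicontinuous

theorem isClosed_XE {s : ℝ} : IsClosed (XE M s) := by
  refine isClosed_of_closure_subset fun g hg => ?_
  obtain ⟨u, hu, hug⟩ := mem_closure_iff_ultrafilter.1 hg
  refine hasE_of_tendsto (l := (u : Filter (LM M))) (G := fun g => fn g) hu fun t => ?_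
  have h1 : Tendsto (fun g : LM M => g (t : AddCircle (1 : ℝ))) (𝓝 g) (𝓝 (fn g t)) :=
    (ContinuousEvalConst.continuous_eval_const _).tendsto g
  exact h1.mono_left hug

/-! ### Rotation, reversal, iteration -/

/-- Rotation by `a`. -/
def rot (a : ℝ) (g : LM M) : LM M := g.comp ⟨fun x => x + (a : AddCircle (1 : ℝ)), by fun_prop⟩

/-- Reversal. -/
def rev (g : LM M) : LM M := g.comp ⟨fun x => -x, by fun_prop⟩

/-- Iteration. -/
def iter (p : ℕ) (g : LM M) : LM M := g.comp ⟨fun x => p • x, by fun_prop⟩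

@[simp] theorem fn_rot (a : ℝ) (g : LM M) (t : ℝ) : fn (rot a g) t = fn g (t + a) := by
  simp [fn, rot]

@[simp] theorem fn_rev (g : LM M) (t : ℝ) : fn (rev g) t = fn g (-t) := by
  simp [fn, rev]

@[simp] theorem fn_iter (p : ℕ) (g : LM M) (t : ℝ) : fn (iter p g) t = fn g (p * t) := by
  simp only [fn, iter, ContinuousMap.comp_apply, ContinuousMap.coe_mk]
  rw [← nsmul_eq_mul, AddCircle.coe_nsmul]

@[simp] theorem rot_zero (g : LM M) : rot 0 g = g := ext_fn fun t => by simp

theorem rot_rot (a b : ℝ) (g : LM M) : rot a (rot b g) = rot (a + b) g :=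
  ext_fn fun t => by simp [add_assoc]

@[simp] theorem rot_one (g : LM M) : rot 1 g = g := ext_fn fun t => by
  rw [fn_rot, fn_periodic g t]

@[simp] theorem rev_rev (g : LM M) : rev (rev g) = g := ext_fn fun t => by simp

theorem rev_rot (a : ℝ) (g : LM M) : rev (rot a g) = rot (-a) (rev g) := ext_fn fun t => by
  simp only [fn_rev, fn_rot]
  congr 1
  ring

theorem rot_iter (a : ℝ) (p : ℕ) (g : LM M) : rot a (iter p g) = iter p (rot (p * a) g) :=
  ext_fn fun t => by
    simp only [fn_rot, fn_iter]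
    congr 1
    ring

theorem rev_iter (p : ℕ) (g : LM M) : rev (iter p g) = iter p (rev g) := ext_fn fun t => by
  simp only [fn_rev, fn_iter]
  congr 1
  ring

theorem iter_iter (p q : ℕ) (g : LM M) : iter p (iter q g) = iter (q * p) g :=
  ext_fn fun t => by
    simp only [fn_iter, Nat.cast_mul, mul_assoc]

@[simp] theorem iter_one (g : LM M) : iter 1 g = g := ext_fn fun t => by simp

theorem rot_nat (n : ℕ) (g : LM M) : rot n g = g := ext_fn fun t => by
  rw [fn_rot]
  simpa using (fn_periodic g).nat_mul n t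

theorem isometry_rot (a : ℝ) : Isometry (rot (M := M) a) := by
  have h : ∀ (a : ℝ) (g g' : LM M), dist (rot a g) (rot a g') ≤ dist g g' := fun a g g' =>
    (dist_le_iff dist_nonneg).2 fun t => by simpa using dist_fn_le g g' _
  refine Isometry.of_dist_eq fun g g' => le_antisymm (h a g g') ?_
  have := h (-a) (rot a g) (rot a g')
  simpa [rot_rot] using this

theorem isometry_rev : Isometry (rev (M := M)) := by
  have h : ∀ (g g' : LM M), dist (rev g) (rev g') ≤ dist g g' := fun g g' =>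
    (dist_le_iff dist_nonneg).2 fun t => by simpa using dist_fn_le g g' _
  refine Isometry.of_dist_eq fun g g' => le_antisymm (h g g') ?_
  simpa using h (rev g) (rev g')

theorem isometry_iter {p : ℕ} (hp : 0 < p) : Isometry (iter (M := M) p) := by
  refine Isometry.of_dist_eq fun g g' => le_antisymm ?_ ?_
  · exact (dist_le_iff dist_nonneg).2 fun t => by simpa using dist_fn_le g g' _
  · refine (dist_le_iff dist_nonneg).2 fun t => ?_
    have h := dist_fn_le (iter p g) (iter p g') (t / p)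
    have hp' : (p : ℝ) ≠ 0 := Nat.cast_ne_zero.2 hp.ne'
    simpa [mul_div_cancel₀ _ hp'] using h

theorem rot_mem {s : ℝ} {g : LM M} (hg : g ∈ XE M s) (a : ℝ) : rot a g ∈ XE M s := by
  rw [mem_XE]
  have := HasE.rot hg a
  convert this using 1
  ext t
  simp

theorem rev_mem {s : ℝ} {g : LM M} (hg : g ∈ XE M s) : rev g ∈ XE M s := by
  rw [mem_XE]
  have := HasE.rev hg
  convert this using 1
  ext t
  simp

theorem iter_mem {s : ℝ} {g : LM M} (hg : g ∈ XE M s) (p : ℕ) : iter p g ∈ XE M (p * s) := by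
  rw [mem_XE, mul_pow]
  have := HasE.iter hg p
  convert this using 1
  ext t
  simp

theorem mem_of_iter_mem {s : ℝ} {g : LM M} {p : ℕ} (hp : 0 < p) (hg : iter p g ∈ XE M (p * s)) :
    g ∈ XE M s := by
  rw [mem_XE, mul_pow] at hg
  refine HasE.of_iter hp (fn_periodic g) ?_
  convert hg using 1
  ext t
  simp

theorem iter_mem_iff {s : ℝ} {g : LM M} {p : ℕ} (hp : 0 < p) :
    iter p g ∈ XE M (p * s) ↔ g ∈ XE M s :=
  ⟨mem_of_iter_mem hp, fun h => iter_mem h p⟩

/-- The loops fixed by rotation by `1 / p` are the `p`-fold iterates. -/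
theorem exists_iter_of_fixed {p : ℕ} (hp : 0 < p) {g : LM M} (h : rot (1 / p) g = g) :
    ∃ g' : LM M, iter p g' = g := by
  have hp' : (p : ℝ) ≠ 0 := Nat.cast_ne_zero.2 hp.ne'
  refine ⟨ofFn (fun t => fn g (t / p)) ((continuous_fn g).comp (by fun_prop)) fun t => ?_,
    ext_fn fun t => ?_⟩
  · have : fn (rot (1 / p) g) (t / p) = fn g (t / p) := by rw [h]
    rw [fn_rot] at this
    change fn g ((t + 1) / p) = fn g (t / p)
    rw [← this]
    congr 1
    ring
  · rw [fn_iter]
    change fn g (p * t / p) = fn g t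
    congr 1
    field_simp

theorem rot_iter_self {p : ℕ} (hp : 0 < p) (g : LM M) : rot (1 / p) (iter p g) = iter p g := by
  have hp' : (p : ℝ) ≠ 0 := Nat.cast_ne_zero.2 hp.ne'
  rw [rot_iter, mul_one_div_cancel hp', rot_one]

/-- Rotation is uniformly continuous in the angle on `XE M s`. -/
theorem dist_rot_le {s : ℝ} (h0 : 0 ≤ s) {g : LM M} (hg : g ∈ XE M s) (a b : ℝ) :
    dist (rot a g) (rot b g) ≤ s * Real.sqrt |a - b| := by
  refine (dist_le_iff (mul_nonneg h0 (Real.sqrt_nonneg _))).2 fun t => ?_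
  rw [fn_rot, fn_rot]
  refine (dist_fn_le_of_mem hg h0 _ _).trans_eq ?_
  congr 3
  ring

/-! ### Reparametrisation -/

/-- A reparametrisation of degree one: monotone, `L`-Lipschitz, `φ (t + 1) = φ t + 1`. -/
structure Rep (L : ℝ) (φ : ℝ → ℝ) : Prop where
  mono : Monotone φ
  lip : ∀ s t, s ≤ t → φ t - φ s ≤ L * (t - s)
  add_one : ∀ t, φ (t + 1) = φ t + 1

theorem Rep.nonneg {L : ℝ} {φ : ℝ → ℝ} (h : Rep L φ) : 0 ≤ L := by
  have h1 := h.lip 0 1 zero_le_one
  have h2 := h.mono zero_le_one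
  linarith

theorem Rep.dist_le {L : ℝ} {φ : ℝ → ℝ} (h : Rep L φ) (s t : ℝ) : |φ s - φ t| ≤ L * |s - t| := by
  wlog hle : s ≤ t generalizing s t
  · rw [abs_sub_comm, abs_sub_comm s t]
    exact this t s (le_of_not_ge hle)
  rw [abs_of_nonpos (sub_nonpos.2 (h.mono hle)), abs_of_nonpos (sub_nonpos.2 hle)]
  linarith [h.lip s t hle]

theorem Rep.continuous {L : ℝ} {φ : ℝ → ℝ} (h : Rep L φ) : Continuous φ := by
  refine (LipschitzWith.of_dist_le_mul (K := ⟨L, h.nonneg⟩) fun s t => ?_).continuous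
  rw [Real.dist_eq, Real.dist_eq]
  exact h.dist_le s t

/-- Reparametrised loop. -/
def reparam {L : ℝ} {φ : ℝ → ℝ} (h : Rep L φ) (g : LM M) : LM M :=
  ofFn (fun t => fn g (φ t)) ((continuous_fn g).comp h.continuous) fun t => by
    simp only [h.add_one, fn_periodic g (φ t)]

@[simp] theorem fn_reparam {L : ℝ} {φ : ℝ → ℝ} (h : Rep L φ) (g : LM M) (t : ℝ) :
    fn (reparam h g) t = fn g (φ t) := rfl

theorem HasE.reparam {L : ℝ} {φ : ℝ → ℝ} (h : Rep L φ) {g : ℝ → M} {C : ℝ} (hg : HasE g C) :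
    HasE (fun t => g (φ t)) (L * C) := by
  obtain ⟨e, h1, h2⟩ := hg
  refine ⟨fun t => L * e (φ t), fun s t hst => ?_, fun t => ?_⟩
  · have h3 : Cert g e (φ s) (φ t) := fun a b _ hab _ => h1 a b hab
    exact (h3.comp (a' := s) (b' := t) fun a b ha hab hb =>
      ⟨h.mono ha, h.mono hab, h.mono hb, h.lip a b hab⟩) s t le_rfl hst le_rfl
  · simp only [h.add_one, h2]
    ring

theorem reparam_mem {L s s' : ℝ} {φ : ℝ → ℝ} (h : Rep L φ) {g : LM M} (hg : g ∈ XE M s)
    (hs : L * s ^ 2 ≤ s' ^ 2) : reparam h g ∈ XE M s' :=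
  (HasE.reparam h hg).mono hs

theorem dist_reparam_le {L : ℝ} {φ : ℝ → ℝ} (h : Rep L φ) (g g' : LM M) :
    dist (reparam h g) (reparam h g') ≤ dist g g' :=
  (dist_le_iff dist_nonneg).2 fun t => by simpa using dist_fn_le g g' (φ t)

theorem dist_reparam_reparam_le {L L' s δ : ℝ} {φ φ' : ℝ → ℝ} (h : Rep L φ) (h' : Rep L' φ')
    (h0 : 0 ≤ s) {g : LM M} (hg : g ∈ XE M s) (hd : ∀ t, |φ t - φ' t| ≤ δ) :
    dist (reparam h g) (reparam h' g) ≤ s * Real.sqrt δ := by
  refine (dist_le_iff (mul_nonneg h0 (Real.sqrt_nonneg _))).2 fun t => ?_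
  rw [fn_reparam, fn_reparam]
  refine (dist_fn_le_of_mem hg h0 _ _).trans ?_
  gcongr
  exact hd t

/-- Convex combinations of reparametrisations. -/
theorem Rep.combo {L : ℝ} {φ ψ : ℝ → ℝ} (h : Rep L φ) (h' : Rep L ψ) {a b : ℝ} (ha : 0 ≤ a)
    (hb : 0 ≤ b) (hab : a + b = 1) : Rep L fun t => a * φ t + b * ψ t where
  mono s t hst := add_le_add (mul_le_mul_of_nonneg_left (h.mono hst) ha)
    (mul_le_mul_of_nonneg_left (h'.mono hst) hb)
  lip s t hst := by
    have h1 := mul_le_mul_of_nonneg_left (h.lip s t hst) ha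
    have h2 := mul_le_mul_of_nonneg_left (h'.lip s t hst) hb
    calc _ = a * (φ t - φ s) + b * (ψ t - ψ s) := by ring
      _ ≤ a * (L * (t - s)) + b * (L * (t - s)) := add_le_add h1 h2
      _ = (a + b) * (L * (t - s)) := by ring
      _ = _ := by rw [hab, one_mul]
  add_one t := by
    simp only [h.add_one, h'.add_one]
    linear_combination hab

theorem Rep.id {L : ℝ} (hL : 1 ≤ L) : Rep L fun t => t where
  mono := monotone_id
  lip _ _ hst := le_mul_of_one_le_left (sub_nonneg.2 hst) hL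
  add_one _ := rfl

end Vale.Agent.P216.L250
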