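import Mathlib

/-!
# Loops of finite energy in a metric space (P216, Theorem A)

A 1-periodic function `g : ℝ → M` has energy at most `C` when it has a *certificate*: a function
`e : ℝ → ℝ` with `dist (g s) (g t) ^ 2 ≤ (t - s) * (e t - e s)` for `s ≤ t` and
`e (t + 1) = e t + C` for all `t`.
-/

namespace Vale.Agent.P216.L250

variable {M : Type*} [MetricSpace M]

/-- `e` certifies the energy of `g` on `[a, b]`. -/
def Cert (g : ℝ → M) (e : ℝ → ℝ) (a b : ℝ) : Prop :=
  ∀ s t, a ≤ s → s ≤ t → t ≤ b → dist (g s) (g t) ^ 2 ≤ (t - s) * (e t - e s)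

/-- `g` is 1-periodic of energy at most `C`. -/
def HasE (g : ℝ → M) (C : ℝ) : Prop :=
  ∃ e : ℝ → ℝ, (∀ s t, s ≤ t → dist (g s) (g t) ^ 2 ≤ (t - s) * (e t - e s)) ∧
    ∀ t, e (t + 1) = e t + C

theorem sq_add_le {a b α β A B : ℝ} (ha : 0 ≤ a) (hb : 0 ≤ b) (hα : 0 ≤ α) (hβ : 0 ≤ β)
    (h1 : a ^ 2 ≤ α * A) (h2 : b ^ 2 ≤ β * B) (hA : 0 ≤ A) (hB : 0 ≤ B) :
    (a + b) ^ 2 ≤ (α + β) * (A + B) := by
  have h3 : (a * b) ^ 2 ≤ (α * B) * (β * A) := by
    calc (a * b) ^ 2 = a ^ 2 * b ^ 2 := by ring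
      _ ≤ (α * A) * (β * B) := mul_le_mul h1 h2 (sq_nonneg _) (mul_nonneg hα hA)
      _ = _ := by ring
  have h4 : 2 * (a * b) ≤ α * B + β * A := by
    have h5 : 0 ≤ α * B + β * A := by positivity
    by_contra hcon
    push Not at hcon
    have h6 : (α * B + β * A) ^ 2 < (2 * (a * b)) ^ 2 := by
      apply sq_lt_sq'
      · nlinarith [mul_nonneg ha hb]
      · exact hcon
    nlinarith [sq_nonneg (α * B - β * A)]
  nlinarith

theorem Cert.mono_fun {g : ℝ → M} {e : ℝ → ℝ} {a b : ℝ} (h : Cert g e a b) {s t : ℝ}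
    (hs : a ≤ s) (hst : s ≤ t) (ht : t ≤ b) : e s ≤ e t := by
  rcases hst.eq_or_lt with rfl | hlt
  · exact le_rfl
  · have h1 := h s t hs hst ht
    have h2 : 0 ≤ (t - s) * (e t - e s) := (sq_nonneg _).trans h1
    have h3 : 0 < t - s := sub_pos.2 hlt
    have := nonneg_of_mul_nonneg_right h2 h3
    linarith

theorem Cert.glue {g : ℝ → M} {e : ℝ → ℝ} {a b c : ℝ} (h1 : Cert g e a b) (h2 : Cert g e b c) :
    Cert g e a c := by
  intro s t hs hst ht
  rcases le_total t b with htb | hbt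
  · exact h1 s t hs hst htb
  rcases le_total b s with hbs | hsb
  · exact h2 s t hbs hst ht
  have e1 := h1 s b hs hsb le_rfl
  have e2 := h2 b t le_rfl hbt ht
  have m1 := h1.mono_fun hs hsb le_rfl
  have m2 := h2.mono_fun le_rfl hbt ht
  calc dist (g s) (g t) ^ 2 ≤ (dist (g s) (g b) + dist (g b) (g t)) ^ 2 :=
        pow_le_pow_left₀ dist_nonneg (dist_triangle _ _ _) 2
    _ ≤ ((b - s) + (t - b)) * ((e b - e s) + (e t - e b)) :=
        sq_add_le dist_nonneg dist_nonneg (by linarith) (by linarith) e1 e2 (by linarith)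
          (by linarith)
    _ = (t - s) * (e t - e s) := by ring

theorem Cert.congr {g g' : ℝ → M} {e e' : ℝ → ℝ} {a b : ℝ} (h : Cert g e a b)
    (hg : ∀ t ∈ Set.Icc a b, g' t = g t) (he : ∀ t ∈ Set.Icc a b, e' t = e t) :
    Cert g' e' a b := by
  intro s t hs hst ht
  rw [hg s ⟨hs, hst.trans ht⟩, hg t ⟨hs.trans hst, ht⟩, he s ⟨hs, hst.trans ht⟩,
    he t ⟨hs.trans hst, ht⟩]
  exact h s t hs hst ht

theorem Cert.mono {g : ℝ → M} {e : ℝ → ℝ} {a b a' b' : ℝ} (h : Cert g e a b) (ha : a ≤ a')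
    (hb : b' ≤ b) : Cert g e a' b' :=
  fun s t hs hst ht => h s t (ha.trans hs) hst (ht.trans hb)

/-- Reparametrisation by a monotone `L`-Lipschitz map. -/
theorem Cert.comp {g : ℝ → M} {e : ℝ → ℝ} {a b a' b' L : ℝ} (h : Cert g e a b) {φ : ℝ → ℝ}
    (hφ : ∀ s t, a' ≤ s → s ≤ t → t ≤ b' → a ≤ φ s ∧ φ s ≤ φ t ∧ φ t ≤ b ∧
      φ t - φ s ≤ L * (t - s)) :
    Cert (fun t => g (φ t)) (fun t => L * e (φ t)) a' b' := by
  intro s t hs hst ht
  obtain ⟨h1, h2, h3, h4⟩ := hφ s t hs hst ht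
  have h5 := h (φ s) (φ t) h1 h2 h3
  have h6 := h.mono_fun h1 h2 h3
  calc dist (g (φ s)) (g (φ t)) ^ 2 ≤ (φ t - φ s) * (e (φ t) - e (φ s)) := h5
    _ ≤ (L * (t - s)) * (e (φ t) - e (φ s)) := mul_le_mul_of_nonneg_right h4 (by linarith)
    _ = _ := by ring

/-- A certificate on `[0, 1]` of a 1-periodic function extends to all of `ℝ`. -/
theorem hasE_of_cert {g : ℝ → M} (hg : Function.Periodic g 1) {e : ℝ → ℝ} {C : ℝ}
    (h : Cert g e 0 1) (hC : e 1 - e 0 = C) : HasE g C := by
  let e' : ℝ → ℝ := fun t => e (Int.fract t) + ⌊t⌋ * C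
  have he' : ∀ t, e' (t + 1) = e' t + C := by
    intro t
    simp only [e', Int.fract_add_one, Int.floor_add_one]
    push_cast
    ring
  -- certificate on `[n, n+1]`
  have key : ∀ n : ℤ, Cert g e' n (n + 1) := by
    intro n
    have hval : ∀ t : ℝ, (n : ℝ) ≤ t → t ≤ n + 1 → e' t = e (t - n) + n * C := by
      intro t h1 h2
      rcases h2.eq_or_lt with h2 | h2
      · have h3 : ⌊t⌋ = n + 1 := by
          rw [h2]; exact_mod_cast Int.floor_intCast (n + 1)
        have h4 : Int.fract t = 0 := by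
          rw [Int.fract, h3, h2]; push_cast; ring
        have h5 : t - n = 1 := by rw [h2]; ring
        simp only [e', h4, h3, h5]
        push_cast
        linarith
      · have h3 : ⌊t⌋ = n := Int.floor_eq_iff.2 ⟨h1, h2⟩
        simp only [e', Int.fract, h3]
    intro s t hs hst ht
    have e1 := hval s hs (hst.trans ht)
    have e2 := hval t (hs.trans hst) ht
    have h1 := h (s - n) (t - n) (by linarith) (by linarith) (by linarith)
    have gs : g (s - n) = g s := by
      simpa using (hg.sub_int_mul_eq (x := s) n)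
    have gt : g (t - n) = g t := by
      simpa using (hg.sub_int_mul_eq (x := t) n)
    rw [gs, gt] at h1
    rw [e1, e2]
    calc dist (g s) (g t) ^ 2 ≤ (t - n - (s - n)) * (e (t - n) - e (s - n)) := h1
      _ = _ := by ring
  have key2 : ∀ n : ℕ, ∀ m : ℤ, Cert g e' m (m + n) := by
    intro n
    induction n with
    | zero =>
      intro m s t hs hst ht
      have : s = t := by
        push_cast at ht
        linarith
      subst this
      simp
    | succ n ih =>
      intro m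
      have h1 := ih m
      have h2 := key (m + n)
      push_cast at h2 ⊢
      have h3 := h1.glue h2
      convert h3 using 1
      ring
  refine ⟨e', fun s t hst => ?_, he'⟩
  obtain ⟨n, hn⟩ := exists_nat_ge (t - ⌊s⌋ : ℝ)
  exact key2 n ⌊s⌋ s t (Int.floor_le s) hst (by linarith)

theorem HasE.cert {g : ℝ → M} {C : ℝ} (h : HasE g C) :
    ∃ e : ℝ → ℝ, e 0 = 0 ∧ (∀ a b, Cert g e a b) ∧ ∀ t, e (t + 1) = e t + C := by
  obtain ⟨e, h1, h2⟩ := h
  refine ⟨fun t => e t - e 0, by simp, fun a b s t _ hst _ => ?_, fun t => ?_⟩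
  · have := h1 s t hst
    simpa using this
  · simp only [h2]; ring

theorem HasE.nonneg {g : ℝ → M} {C : ℝ} (h : HasE g C) : 0 ≤ C := by
  obtain ⟨e, h1, h2⟩ := h
  have h3 := h1 0 1 zero_le_one
  have h4 := h2 0
  rw [zero_add] at h4
  rw [h4] at h3
  nlinarith [sq_nonneg (dist (g 0) (g 1))]

theorem HasE.mono {g : ℝ → M} {C C' : ℝ} (h : HasE g C) (hC : C ≤ C') : HasE g C' := by
  obtain ⟨e, h1, h2⟩ := h
  refine ⟨fun t => e t + t * (C' - C), fun s t hst => ?_, fun t => ?_⟩
  · have := h1 s t hst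
    have h3 : 0 ≤ (t - s) * ((t - s) * (C' - C)) :=
      mul_nonneg (by linarith) (mul_nonneg (by linarith) (by linarith))
    calc _ ≤ _ := this
      _ ≤ _ := by nlinarith
  · simp only [h2]; ring

theorem HasE.holder {g : ℝ → M} {C : ℝ} (h : HasE g C) {s t : ℝ} (hst : s ≤ t) (h1 : t ≤ s + 1) :
    dist (g s) (g t) ^ 2 ≤ (t - s) * C := by
  obtain ⟨e, he, h0, h2⟩ := h.cert
  have h3 := h0 s t s t le_rfl hst le_rfl
  have h4 := (h0 s (s + 1)).mono_fun hst h1 le_rfl
  rw [h2] at h4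
  exact h3.trans (mul_le_mul_of_nonneg_left (by linarith) (by linarith))

theorem HasE.rot {g : ℝ → M} {C : ℝ} (h : HasE g C) (a : ℝ) : HasE (fun t => g (t + a)) C := by
  obtain ⟨e, h1, h2⟩ := h
  refine ⟨fun t => e (t + a), fun s t hst => ?_, fun t => ?_⟩
  · have := h1 (s + a) (t + a) (by linarith)
    simpa using this
  · simp only [← h2]
    congr 1
    ring

theorem HasE.rev {g : ℝ → M} {C : ℝ} (h : HasE g C) : HasE (fun t => g (-t)) C := by
  obtain ⟨e, h1, h2⟩ := h
  refine ⟨fun t => - e (-t), fun s t hst => ?_, fun t => ?_⟩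
  · have := h1 (-t) (-s) (by linarith)
    rw [dist_comm]
    linarith
  · have := h2 (-(t + 1))
    simp only at this ⊢
    rw [show -(t + 1) + 1 = -t by ring] at this
    linarith

theorem HasE.iter {g : ℝ → M} {C : ℝ} (h : HasE g C) (p : ℕ) :
    HasE (fun t => g (p * t)) (p ^ 2 * C) := by
  obtain ⟨e, h1, h2⟩ := h
  have h3 : ∀ (n : ℕ) t, e (t + n) = e t + n * C := by
    intro n
    induction n with
    | zero => intro t; simp
    | succ n ih =>
      intro t
      have := ih t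
      push_cast
      rw [← add_assoc, h2, this]
      ring
  refine ⟨fun t => p * e (p * t), fun s t hst => ?_, fun t => ?_⟩
  · have h4 : (p : ℝ) * s ≤ p * t := mul_le_mul_of_nonneg_left hst (Nat.cast_nonneg p)
    have := h1 (p * s) (p * t) h4
    calc _ ≤ _ := this
      _ = _ := by ring
  · simp only
    rw [mul_add, mul_one, h3 p]
    ring

/-- If `t ↦ g (p * t)` has energy at most `p ^ 2 * C`, then `g` has energy at most `C`. -/
theorem HasE.of_iter {g : ℝ → M} {C : ℝ} {p : ℕ} (hp : 0 < p) (hg : Function.Periodic g 1)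
    (h : HasE (fun t => g (p * t)) (p ^ 2 * C)) : HasE g C := by
  obtain ⟨e, he, h0, h2⟩ := h.cert
  have hp' : (0 : ℝ) < p := Nat.cast_pos.2 hp
  -- average the certificates of the `p` pieces
  let e' : ℝ → ℝ := fun t => (∑ j ∈ Finset.range p, e ((t + j) / p)) / p ^ 2
  have hg' : ∀ (j : ℕ) t, g (t + j) = g t := fun j t => by
    simpa using (hg.nat_mul j) t
  refine ⟨e', fun s t hst => ?_, fun t => ?_⟩
  · have h3 : ∀ j ∈ Finset.range p, (p : ℝ) * dist (g s) (g t) ^ 2 ≤
        (t - s) * (e ((t + j) / p) - e ((s + j) / p)) := by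
      intro j _
      have h4 : (s + j) / p ≤ (t + j) / p := by gcongr
      have h5 := h0 _ _ ((s + j) / p) ((t + j) / p) le_rfl h4 le_rfl
      simp only at h5
      rw [mul_div_cancel₀ _ hp'.ne', mul_div_cancel₀ _ hp'.ne', hg', hg'] at h5
      have h6 : (t + j) / p - (s + j) / p = (t - s) / p := by
        field_simp
        ring
      rw [h6, div_mul_eq_mul_div, le_div_iff₀ hp'] at h5
      linarith
    have h4 := Finset.sum_le_sum h3
    rw [Finset.sum_const, Finset.card_range, ← Finset.mul_sum, Finset.sum_sub_distrib,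
      nsmul_eq_mul] at h4
    have h5 : e' t - e' s = ((∑ j ∈ Finset.range p, e ((t + j) / p)) -
        ∑ j ∈ Finset.range p, e ((s + j) / p)) / p ^ 2 := by
      simp only [e']; ring
    rw [h5, mul_div_assoc', le_div_iff₀ (by positivity)]
    calc dist (g s) (g t) ^ 2 * p ^ 2 = p * (p * dist (g s) (g t) ^ 2) := by ring
      _ ≤ _ := h4
  · simp only [e']
    have h3 : ∑ j ∈ Finset.range p, e ((t + 1 + j) / p) =
        ∑ j ∈ Finset.range p, e ((t + j) / p) + (p ^ 2 * C) := by
      have h4 : ∀ j : ℕ, e ((t + 1 + j) / p) = e ((t + (j + 1 : ℕ)) / p) := by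
        intro j; congr 1; push_cast; ring
      simp only [h4]
      have h5 := Finset.sum_range_succ' (fun j : ℕ => e ((t + j) / p)) p
      have h6 := Finset.sum_range_succ (fun j : ℕ => e ((t + j) / p)) p
      have h7 : e ((t + p) / p) = e (t / p) + p ^ 2 * C := by
        rw [← h2]; congr 1; field_simp
      rw [h7] at h6
      simp only [Nat.cast_zero, add_zero] at h5
      linarith
    rw [h3]
    field_simp

end Vale.Agent.P216.L250
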