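import Vale.Agent.P216.H826.BarsGeo

/-!
# From one weak sweep to sweeps at all points (P216, Theorem A, block BARS)
-/

namespace Vale.Agent.P216.L250

open Set Filter Topology
open Vale.Agent.P216.LS Vale.Agent.P216.H288 Vale.Agent.P216.H826
open scoped ComplexConjugate

variable {M : Type*} [MetricSpace M]

/-! ### The distance to the integers -/

/-- The distance to the nearest integer. -/
noncomputable def dZ (t : ℝ) : ℝ := ‖(t : AddCircle (1 : ℝ))‖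

theorem dZ_eq (t : ℝ) : dZ t = |t - round t| := UnitAddCircle.norm_eq

theorem dZ_add_one (t : ℝ) : dZ (t + 1) = dZ t := by
  rw [dZ, AddCircle.coe_add_period, dZ]

theorem dZ_neg (t : ℝ) : dZ (-t) = dZ t := by
  rw [dZ, AddCircle.coe_neg, norm_neg, dZ]

theorem dZ_nonneg (t : ℝ) : 0 ≤ dZ t := norm_nonneg _

theorem dZ_le (t : ℝ) : dZ t ≤ 1 / 2 := by
  have := AddCircle.norm_le_half_period (1 : ℝ) one_ne_zero (x := (t : AddCircle (1 : ℝ)))
  rwa [abs_one] at this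

theorem dZ_lip (s t : ℝ) : |dZ s - dZ t| ≤ |s - t| := by
  refine (abs_norm_sub_norm_le _ _).trans ?_
  rw [← AddCircle.coe_sub]
  exact norm_coe_le _

theorem dZ_of_le {t : ℝ} (h0 : 0 ≤ t) (h1 : t ≤ 1 / 2) : dZ t = t := by
  have h := (AddCircle.norm_coe_eq_abs_iff (1 : ℝ) (x := t) one_ne_zero).2 (by
    rw [abs_of_nonneg h0, abs_one]; exact h1)
  rw [dZ, h, abs_of_nonneg h0]

theorem dZ_of_ge {t : ℝ} (h0 : 1 / 2 ≤ t) (h1 : t ≤ 1) : dZ t = 1 - t := by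
  rw [← dZ_neg, ← dZ_add_one, dZ_of_le (by linarith) (by linarith)]
  ring

theorem continuous_dZ : Continuous dZ := by
  refine (LipschitzWith.of_dist_le_mul (K := 1) fun s t => ?_).continuous
  rw [Real.dist_eq, Real.dist_eq, NNReal.coe_one, one_mul]
  exact dZ_lip s t

/-! ### Back and forth along a curve -/

/-- `t ↦ γ (2 r dZ t)`. -/
noncomputable def bf (γ : LM M) (r : ℝ) : LM M :=
  ofFn (fun t => fn γ (r * (2 * dZ t)))
    ((continuous_fn γ).comp (continuous_const.mul (continuous_const.mul continuous_dZ)))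
    fun t => by
      change fn γ (r * (2 * dZ (t + 1))) = fn γ (r * (2 * dZ t))
      rw [dZ_add_one]

@[simp] theorem fn_bf (γ : LM M) (r t : ℝ) : fn (bf γ r) t = fn γ (r * (2 * dZ t)) := rfl

theorem bf_zero (γ : LM M) : bf γ 0 = cst (fn γ 0) := ext_fn fun t => by
  rw [fn_bf, zero_mul, fn_cst]

theorem fn_bf_zero (γ : LM M) (r : ℝ) : fn (bf γ r) 0 = fn γ 0 := by
  rw [fn_bf, dZ_of_le le_rfl (by norm_num), mul_zero, mul_zero]

theorem rev_bf (γ : LM M) (r : ℝ) : rev (bf γ r) = bf γ r := ext_fn fun t => by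
  rw [fn_rev, fn_bf, fn_bf, dZ_neg]

theorem bf_one (γ : LM M) : bf γ 1 = cc (1 / 2) γ (rev γ) := by
  have hc : (0 : ℝ) < 1 / 2 ∧ (1 : ℝ) / 2 < 1 := by norm_num
  have h0 : fn γ 0 = fn (rev γ) 0 := by rw [fn_rev, neg_zero]
  refine dist_le_zero.1 (dist_le_of_Ico le_rfl fun t ht => ?_)
  rcases le_total t (1 / 2) with h1 | h1
  · rw [fn_cc_left hc h0 ht.1 h1, fn_bf, dZ_of_le ht.1 h1, one_mul]
    rw [show t / (1 / 2) = 2 * t by ring, dist_self]
  · rw [fn_cc_right hc h0 h1 ht.2.le, fn_bf, dZ_of_ge h1 ht.2.le, one_mul, fn_rev]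
    have : fn γ (-((t - 1 / 2) / (1 - 1 / 2))) = fn γ (2 * (1 - t)) := by
      rw [← fn_periodic γ]
      congr 1
      ring
    rw [this, dist_self]

theorem hasE_bf {γ : LM M} {C : ℝ} (h : HasE (fn γ) C) {r : ℝ} (hr : r ∈ Icc (0 : ℝ) 1) :
    HasE (fn (bf γ r)) (4 * C) := by
  obtain ⟨e, he0, he, he1⟩ := h.cert
  obtain ⟨e', he0', he', he1'⟩ := h.rev.cert
  have hC := h.nonneg
  have hr0 : 0 ≤ r := hr.1
  have c1 : Cert (fn (bf γ r)) (fun t => 2 * e (2 * r * t)) 0 (1 / 2) := by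
    have := (he 0 1).comp (φ := fun t => 2 * r * t) (a' := 0) (b' := 1 / 2) (L := 2) (by
      intro s t hs hst ht
      refine ⟨by positivity, by gcongr, ?_, ?_⟩
      · nlinarith [hr.2]
      · nlinarith [hr.2])
    refine this.congr (fun t ht => ?_) fun t ht => rfl
    rw [fn_bf, dZ_of_le ht.1 ht.2]
    congr 1
    ring
  have c2 : Cert (fn (bf γ r)) (fun t => 2 * e' (2 * r * (t - 1)) +
      (2 * e r - 2 * e' (-r))) (1 / 2) 1 := by
    have := ((he' (-1) 0).comp (φ := fun t => 2 * r * (t - 1)) (a' := 1 / 2) (b' := 1) (L := 2) (by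
      intro s t hs hst ht
      refine ⟨?_, by gcongr, ?_, ?_⟩
      · nlinarith [hr.2]
      · nlinarith [hr.2]
      · nlinarith [hr.2])).add_const (2 * e r - 2 * e' (-r))
    refine this.congr (fun t ht => ?_) fun t ht => rfl
    rw [fn_bf, dZ_of_ge ht.1 ht.2]
    congr 1
    ring
  let E : ℝ → ℝ := fun t => if t ≤ 1 / 2 then 2 * e (2 * r * t) else
    2 * e' (2 * r * (t - 1)) + (2 * e r - 2 * e' (-r))
  have d1 : Cert (fn (bf γ r)) E 0 (1 / 2) := c1.congr (fun _ _ => rfl) fun t ht => by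
    simp only [E, if_pos ht.2]
  have d2 : Cert (fn (bf γ r)) E (1 / 2) 1 := c2.congr (fun _ _ => rfl) fun t ht => by
    rcases ht.1.eq_or_lt with rfl | h3
    · simp only [E, if_pos le_rfl]
      rw [show 2 * r * (1 / 2) = r by ring, show 2 * r * (1 / 2 - 1) = -r by ring]
      ring
    · simp only [E, if_neg (not_le.2 h3)]
  have h1 : HasE (fn (bf γ r)) (E 1 - E 0) := hasE_of_cert (fn_periodic _) (d1.glue d2) rfl
  refine h1.mono ?_
  have e1 : E 1 = 2 * e' 0 + (2 * e r - 2 * e' (-r)) := by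
    simp only [E, if_neg (show ¬((1 : ℝ) ≤ 1 / 2) by norm_num), sub_self, mul_zero]
  have e2 : E 0 = 2 * e 0 := by
    simp only [E, if_pos (show (0 : ℝ) ≤ 1 / 2 by norm_num), mul_zero]
  rw [e1, e2, he0', he0]
  have b1 : e r ≤ C := by
    have := (he r 1).mono_fun le_rfl hr.2 le_rfl
    have h2 : e 1 = C := by simpa [he0] using he1 0
    linarith
  have b2 : -C ≤ e' (-r) := by
    have := (he' (-1) (-r)).mono_fun le_rfl (by linarith [hr.2]) le_rfl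
    have h2 : e' (-1) = -C := by
      have := he1' (-1)
      rw [neg_add_cancel, he0'] at this
      linarith
    linarith
  linarith

theorem dist_bf_le {γ : LM M} {s : ℝ} (h0 : 0 ≤ s) (h : γ ∈ XE M s) (r r' : ℝ) :
    dist (bf γ r) (bf γ r') ≤ s * Real.sqrt |r - r'| := by
  refine (dist_le_iff (mul_nonneg h0 (Real.sqrt_nonneg _))).2 fun t => ?_
  rw [fn_bf, fn_bf]
  refine (dist_fn_le_of_mem h h0 _ _).trans ?_
  refine mul_le_mul_of_nonneg_left (Real.sqrt_le_sqrt ?_) h0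
  rw [← sub_mul, abs_mul, abs_of_nonneg (mul_nonneg zero_le_two (dZ_nonneg t))]
  refine mul_le_of_le_one_right (abs_nonneg _) ?_
  have := dZ_le t
  linarith

theorem continuous_bf {γ : LM M} {s : ℝ} (h0 : 0 ≤ s) (h : γ ∈ XE M s) :
    Continuous (bf γ) := by
  rw [Metric.continuous_iff']
  intro r ε hε
  have h1 : Tendsto (fun r' => |r' - r|) (𝓝 r) (𝓝 0) := by
    have : Continuous fun r' : ℝ => |r' - r| := by fun_prop
    simpa using this.tendsto r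
  filter_upwards [((tendsto_modulus s).comp h1) (gt_mem_nhds hε)] with r' hr'
  exact (dist_bf_le h0 h r' r).trans_lt hr'

/-! ### Holonomy of symmetric loops -/

theorem hol_eq_one_of_symm (H : Hol M) {Z : ℝ → LM M} {b : ℝ} (hc : ContinuousOn Z (Icc 0 1))
    (hm : ∀ u ∈ Icc (0 : ℝ) 1, Z u ∈ XE M b) (hr : ∀ u ∈ Icc (0 : ℝ) 1, rev (Z u) = Z u)
    (h0 : H.hol (Z 0) = 1) {u : ℝ} (hu : u ∈ Icc (0 : ℝ) 1) : H.hol (Z u) = 1 := by
  have hc2 : ContinuousOn (fun σ : ℝ => H.hol (Z σ)) (Icc 0 1) :=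
    (H.continuousOn_hol b).comp hc hm
  have hsq : EqOn ((fun σ : ℝ => H.hol (Z σ)) ^ 2) 1 (Icc 0 1) := by
    intro σ hσ
    have h1 := H.hol_rev (Z σ)
    rw [hr σ hσ] at h1
    have h3 := H.mul_conj_hol (Z σ)
    rw [← h1] at h3
    simp only [Pi.pow_apply, Pi.one_apply, pow_two]
    exact h3
  rcases isPreconnected_Icc.eq_one_or_eq_neg_one_of_sq_eq hc2 hsq with h1 | h1
  · exact h1 hu
  · have h2 := h1 (left_mem_Icc.2 zero_le_one)
    simp only [h0, Pi.neg_apply, Pi.one_apply] at h2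
    norm_num at h2

/-! ### Gluing of shrinkings at both ends -/

theorem isSweep_glue (H : Hol M) {x : M} {b : ℝ} {w A : ℝ → LM M} {lam : ℝ → ℂ}
    (hw : ContinuousOn w (Icc 0 1)) (hwb : ∀ τ ∈ Icc (0 : ℝ) 1, fn (w τ) 0 = x)
    (hwm : ∀ τ ∈ Icc (0 : ℝ) 1, w τ ∈ XE M b) (hA : ContinuousOn A (Icc 0 1))
    (hAb : ∀ τ ∈ Icc (0 : ℝ) 1, fn (A τ) 0 = x) (hAm : ∀ τ ∈ Icc (0 : ℝ) 1, A τ ∈ XE M b)
    (hAh : ∀ τ ∈ Icc (0 : ℝ) 1, H.hol (A τ) = 1) (hA0 : A 0 = cst x) (hA1 : A 1 = w 0)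
    (hw1 : w 1 = w 0) (hl : ContinuousOn lam (Icc 0 1))
    (hsq : ∀ τ ∈ Icc (0 : ℝ) 1, lam τ ^ 2 = H.hol (w τ)) (hl0 : lam 0 = 1) (hl1 : lam 1 = -1) :
    ∃ w' μ', IsSweep H x b w' μ' := by
  let w' : ℝ → LM M := fun τ => if τ ≤ 1 / 3 then A (3 * τ) else
    if τ ≤ 2 / 3 then w (3 * τ - 1) else A (3 - 3 * τ)
  let μ' : ℝ → ℂ := fun τ => if τ ≤ 1 / 3 then 1 else
    if τ ≤ 2 / 3 then lam (3 * τ - 1) else -1
  have w1 : ∀ τ ∈ Icc (0 : ℝ) (1 / 3), w' τ = A (3 * τ) ∧ μ' τ = 1 := fun τ hτ => by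
    simp only [w', μ', if_pos hτ.2, and_self]
  have w2 : ∀ τ ∈ Icc (1 / 3 : ℝ) (2 / 3), w' τ = w (3 * τ - 1) ∧ μ' τ = lam (3 * τ - 1) := by
    intro τ hτ
    rcases hτ.1.eq_or_lt with h | h
    · rw [← h]
      simp only [w', μ', if_pos le_rfl]
      norm_num
      exact ⟨hA1, hl0.symm⟩
    · simp only [w', μ', if_neg (not_le.2 h), if_pos hτ.2, and_self]
  have w3 : ∀ τ ∈ Icc (2 / 3 : ℝ) 1, w' τ = A (3 - 3 * τ) ∧ μ' τ = -1 := by
    intro τ hτ
    have h13 : ¬ τ ≤ 1 / 3 := by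
      have := hτ.1
      intro h
      linarith
    rcases hτ.1.eq_or_lt with h | h
    · have h13' : ¬ (2 / 3 : ℝ) ≤ 1 / 3 := by norm_num
      rw [← h]
      simp only [w', μ', if_neg h13', if_pos le_rfl]
      have e1 : (3 : ℝ) * (2 / 3) - 1 = 1 := by norm_num
      have e2 : (3 : ℝ) - 3 * (2 / 3) = 1 := by norm_num
      rw [e1, e2, hw1, hA1]
      exact ⟨rfl, hl1⟩
    · simp only [w', μ', if_neg h13, if_neg (not_le.2 h), and_self]
  have m1 : MapsTo (fun τ : ℝ => 3 * τ) (Icc 0 (1 / 3)) (Icc 0 1) := fun τ hτ =>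
    ⟨by linarith [hτ.1], by linarith [hτ.2]⟩
  have m2 : MapsTo (fun τ : ℝ => 3 * τ - 1) (Icc (1 / 3) (2 / 3)) (Icc 0 1) := fun τ hτ =>
    ⟨by linarith [hτ.1], by linarith [hτ.2]⟩
  have m3 : MapsTo (fun τ : ℝ => 3 - 3 * τ) (Icc (2 / 3) 1) (Icc 0 1) := fun τ hτ =>
    ⟨by linarith [hτ.2], by linarith [hτ.1]⟩
  have hcov : (Icc (0 : ℝ) 1) = (Icc 0 (1 / 3) ∪ Icc (1 / 3) (2 / 3)) ∪ Icc (2 / 3) 1 := by
    rw [Icc_union_Icc_eq_Icc (by norm_num) (by norm_num),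
      Icc_union_Icc_eq_Icc (by norm_num) (by norm_num)]
  have hcase : ∀ τ ∈ Icc (0 : ℝ) 1, τ ∈ Icc (0 : ℝ) (1 / 3) ∨ τ ∈ Icc (1 / 3 : ℝ) (2 / 3) ∨
      τ ∈ Icc (2 / 3 : ℝ) 1 := by
    intro τ hτ
    rw [hcov] at hτ
    rcases hτ with (h | h) | h
    · exact Or.inl h
    · exact Or.inr (Or.inl h)
    · exact Or.inr (Or.inr h)
  refine ⟨w', μ', ?_, ?_, ?_, ?_, ?_, ?_, ?_, ?_, ?_⟩
  · rw [hcov]
    refine ContinuousOn.union_of_isClosed (ContinuousOn.union_of_isClosed ?_ ?_ isClosed_Icc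
      isClosed_Icc) ?_ (isClosed_Icc.union isClosed_Icc) isClosed_Icc
    · exact (hA.comp (by fun_prop) m1).congr fun τ hτ => (w1 τ hτ).1
    · exact (hw.comp (by fun_prop) m2).congr fun τ hτ => (w2 τ hτ).1
    · exact (hA.comp (by fun_prop) m3).congr fun τ hτ => (w3 τ hτ).1
  · intro τ hτ
    rcases hcase τ hτ with h | h | h
    · rw [(w1 τ h).1]; exact hAb _ (m1 h)
    · rw [(w2 τ h).1]; exact hwb _ (m2 h)
    · rw [(w3 τ h).1]; exact hAb _ (m3 h)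
  · intro τ hτ
    rcases hcase τ hτ with h | h | h
    · rw [(w1 τ h).1]; exact hAm _ (m1 h)
    · rw [(w2 τ h).1]; exact hwm _ (m2 h)
    · rw [(w3 τ h).1]; exact hAm _ (m3 h)
  · rw [(w1 0 ⟨le_rfl, by norm_num⟩).1, mul_zero, hA0]
  · rw [(w3 1 ⟨by norm_num, le_rfl⟩).1, mul_one, sub_self, hA0]
  · rw [hcov]
    refine ContinuousOn.union_of_isClosed (ContinuousOn.union_of_isClosed ?_ ?_ isClosed_Icc
      isClosed_Icc) ?_ (isClosed_Icc.union isClosed_Icc) isClosed_Icc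
    · exact continuousOn_const.congr fun τ hτ => (w1 τ hτ).2
    · exact (hl.comp (by fun_prop) m2).congr fun τ hτ => (w2 τ hτ).2
    · exact continuousOn_const.congr fun τ hτ => (w3 τ hτ).2
  · intro τ hτ
    rcases hcase τ hτ with h | h | h
    · rw [(w1 τ h).1, (w1 τ h).2, hAh _ (m1 h), one_pow]
    · rw [(w2 τ h).1, (w2 τ h).2]; exact hsq _ (m2 h)
    · rw [(w3 τ h).1, (w3 τ h).2, hAh _ (m3 h)]; norm_num
  · exact (w1 0 ⟨le_rfl, by norm_num⟩).2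
  · exact (w3 1 ⟨by norm_num, le_rfl⟩).2

/-! ### Weak sweeps -/

/-- A loop of loops based at `x₀` along which a square root of the holonomy changes sign. -/
structure WeakSweep (H : Hol M) (x₀ : M) (b : ℝ) (w : ℝ → LM M) (lam : ℝ → ℂ) : Prop where
  cont_w : ContinuousOn w (Icc 0 1)
  base : ∀ τ ∈ Icc (0 : ℝ) 1, fn (w τ) 0 = x₀
  mem : ∀ τ ∈ Icc (0 : ℝ) 1, w τ ∈ XE M b
  closed : w 1 = w 0
  cont_lam : ContinuousOn lam (Icc 0 1)
  sq : ∀ τ ∈ Icc (0 : ℝ) 1, lam τ ^ 2 = H.hol (w τ)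
  lam_one : lam 1 = -lam 0

theorem WeakSweep.exists_isSweep {H : Hol M} {x₀ : M} {b : ℝ} {w : ℝ → LM M} {lam : ℝ → ℂ}
    (h : WeakSweep H x₀ b w lam) (hb : 0 ≤ b) : ∃ w' μ', IsSweep H x₀ (2 * b) w' μ' := by
  have h0 : (0 : ℝ) ∈ Icc (0 : ℝ) 1 := left_mem_Icc.2 zero_le_one
  have hbase : ∀ τ ∈ Icc (0 : ℝ) 1, fn (w τ) 0 = fn (rev (w 0)) 0 := fun τ hτ => by
    rw [fn_rev, neg_zero, h.base τ hτ, h.base 0 h0]
  have hnorm : ‖lam 0‖ = 1 := by
    have h1 : ‖lam 0‖ ^ 2 = 1 := by rw [← norm_pow, h.sq 0 h0, H.norm_hol]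
    exact (pow_eq_one_iff_of_nonneg (norm_nonneg _) two_ne_zero).1 h1
  have hl : lam 0 * conj (lam 0) = 1 := by
    rw [Complex.mul_conj, Complex.normSq_eq_norm_sq, hnorm]
    norm_num
  refine isSweep_glue H (w := fun τ => cc (1 / 2) (w τ) (rev (w 0))) (A := bf (w 0))
    (lam := fun τ => lam τ * conj (lam 0)) ?_ ?_ ?_ ?_ ?_ ?_ ?_ ?_ ?_ ?_ ?_ ?_ ?_ ?_
  · exact continuousOn_cc half_mem h.cont_w continuousOn_const hbase
  · intro τ hτ
    rw [fn_cc_zero half_mem (hbase τ hτ), fn_rev, neg_zero, h.base 0 h0]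
  · intro τ hτ
    have := hasE_cc half_mem (hbase τ hτ) (h.mem τ hτ) (rev_mem (h.mem 0 h0))
    rw [mem_XE]
    convert this using 1
    ring
  · exact (continuous_bf hb (h.mem 0 h0)).continuousOn
  · intro τ _
    rw [fn_bf_zero, h.base 0 h0]
  · intro τ hτ
    have := hasE_bf (h.mem 0 h0) hτ
    rw [mem_XE]
    convert this using 1
    ring
  · intro τ hτ
    refine hol_eq_one_of_symm H (b := 2 * b) (continuous_bf hb (h.mem 0 h0)).continuousOn
      (fun u hu => ?_) (fun u _ => rev_bf _ _) ?_ hτ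
    · have := hasE_bf (h.mem 0 h0) hu
      rw [mem_XE]
      convert this using 1
      ring
    · rw [bf_zero, H.hol_cst]
  · rw [bf_zero, h.base 0 h0]
  · rw [bf_one]
  · change cc (1 / 2) (w 1) (rev (w 0)) = cc (1 / 2) (w 0) (rev (w 0))
    rw [h.closed]
  · exact h.cont_lam.mul continuousOn_const
  · intro τ hτ
    rw [H.hol_cc half_mem (hbase τ hτ) (finE_of_mem (h.mem τ hτ))
      (finE_of_mem (rev_mem (h.mem 0 h0))), H.hol_rev, ← h.sq τ hτ, ← h.sq 0 h0, map_pow]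
    ring
  · exact hl
  · change lam 1 * conj (lam 0) = -1
    rw [h.lam_one, neg_mul, hl]

/-! ### Transport along short segments -/

theorem transport [CompactSpace M] {ρ : ℝ} (hU : UniqSeg M ρ) {H : Hol M} {y x : M} {b : ℝ}
    {w : ℝ → LM M} {μ : ℝ → ℂ} (h : IsSweep H y b w μ) (hyx : dist y x < ρ) :
    ∃ b' w' μ', IsSweep H x b' w' μ' := by
  have h0 : (0 : ℝ) ∈ Icc (0 : ℝ) 1 := left_mem_Icc.2 zero_le_one
  set b' : ℝ := Real.sqrt (2 * (b ^ 2 + (2 * ρ) ^ 2)) with hb'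
  have hb : 2 * (b ^ 2 + (2 * ρ) ^ 2) ≤ b' ^ 2 := by
    rw [hb', Real.sq_sqrt (by positivity)]
  have hxy : dist x y < ρ := by rwa [dist_comm]
  have hseg : ∀ τ ∈ Icc (0 : ℝ) 1, dist (seg x y τ) x < ρ := fun τ hτ => by
    rw [dist_comm, dist_left_seg hU hxy hτ]
    exact (mul_le_of_le_one_left dist_nonneg hτ.2).trans_lt hxy
  refine ⟨b', ?_⟩
  refine isSweep_glue H (w := fun τ => fam (w τ) y x)
    (A := fun τ => fam (cst (seg x y τ)) (seg x y τ) x) (lam := μ) ?_ ?_ ?_ ?_ ?_ ?_ ?_ ?_ ?_ ?_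
    h.cont_μ ?_ h.μ_zero h.μ_one
  · exact continuousOn_fam hU h.cont_w continuousOn_const continuousOn_const h.base
      fun _ _ => hyx
  · exact fun τ hτ => fam_zero hU hyx (h.base τ hτ)
  · exact fun τ hτ => fam_hasE hU hyx (h.base τ hτ) (h.mem τ hτ) hb
  · have hs : ContinuousOn (fun τ : ℝ => seg x y τ) (Icc 0 1) :=
      ContinuousOn.seg hU continuousOn_const continuousOn_const continuousOn_id
        (fun _ _ => hxy) fun _ hσ => hσ
    refine continuousOn_fam hU (continuous_cst.comp_continuousOn hs) hs continuousOn_const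
      (fun _ _ => rfl) hseg
  · exact fun τ hτ => fam_zero hU (hseg τ hτ) rfl
  · exact fun τ hτ => fam_hasE hU (hseg τ hτ) rfl (cst_mem _ b) hb
  · intro τ hτ
    rw [hol_fam H hU (hseg τ hτ) (fn_cst (seg x y τ) 0) (finE_cst _), H.hol_cst]
  · simp only [seg_zero, fam_self]
  · simp only [seg_one, h.w_zero]
  · simp only [h.w_zero, h.w_one]
  · intro τ hτ
    rw [h.sq τ hτ, hol_fam H hU hyx (h.base τ hτ) (finE_of_mem (h.mem τ hτ))]

/-- **Sweeps at all points.** -/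
theorem exists_sweep_all [CompactSpace M] [PreconnectedSpace M] {ρ : ℝ} (hρ : 0 < ρ)
    (hU : UniqSeg M ρ) {H : Hol M} {x₁ : M} {b : ℝ} {w : ℝ → LM M} {μ : ℝ → ℂ}
    (h : IsSweep H x₁ b w μ) (x₀ : M) : ∃ b w μ, IsSweep H x₀ b w μ := by
  let S : Set M := {x | ∃ b w μ, IsSweep H x b w μ}
  have hS : ∀ x y : M, dist y x < ρ → y ∈ S → x ∈ S := by
    rintro x y hxy ⟨b, w, μ, h⟩
    exact transport hU h hxy
  have hopen : IsOpen S := by
    rw [Metric.isOpen_iff]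
    exact fun y hy => ⟨ρ, hρ, fun x hx => hS x y (by rwa [dist_comm]) hy⟩
  have hclosed : IsClosed S := by
    rw [← isOpen_compl_iff, Metric.isOpen_iff]
    exact fun x hx => ⟨ρ, hρ, fun y hy hyS => hx (hS x y hy hyS)⟩
  have huniv : S = univ := IsClopen.eq_univ ⟨hclosed, hopen⟩ ⟨x₁, b, w, μ, h⟩
  have : x₀ ∈ S := huniv ▸ mem_univ x₀
  exact this

theorem WeakSweep.exists_sweep_all [CompactSpace M] [PreconnectedSpace M] {ρ : ℝ} (hρ : 0 < ρ)
    (hU : UniqSeg M ρ) {H : Hol M} {x₁ : M} {b : ℝ} (hb : 0 ≤ b) {w : ℝ → LM M} {lam : ℝ → ℂ}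
    (h : WeakSweep H x₁ b w lam) (x₀ : M) : ∃ b w μ, IsSweep H x₀ b w μ := by
  obtain ⟨w', μ', h'⟩ := h.exists_isSweep hb
  exact L250.exists_sweep_all hρ hU h' x₀

end Vale.Agent.P216.L250
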