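import Vale.Agent.P216.L250.Hol
import Vale.Agent.P216.Hol.Struct

/-! The holonomy of a kernel as a holonomy structure. -/

namespace Vale.Agent.P216.L250

open Set Filter Topology Vale.Agent.P216.H288
open scoped ComplexConjugate

variable {M : Type*} [MetricSpace M] {κ : M → M → ℂ} {A r : ℝ}

/-- The holonomy structure of a kernel. -/
noncomputable def Ker.toHol (h : Ker κ A r) : H288.Hol M :=
  Hol.ofFinE (hol κ) (fun g _ => h.norm_hol g) (fun s _ => h.continuousOn_hol s)
    (fun a _ hg => h.hol_rot hg a) (fun _ hg => h.hol_rev hg) (fun p _ _ hg => h.hol_iter hg p)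
    h.hol_cst (fun hφ _ hg => h.hol_reparam hg hφ) fun hc h0 hw hg => h.hol_cc hc h0 hw hg

theorem Ker.toHol_hol (h : Ker κ A r) {g : LM M} (hg : FinE g) : h.toHol.hol g = hol κ g := by
  classical
  have h1 : h.toHol.hol g = if FinE g then hol κ g else 1 := rfl
  rw [h1, if_pos hg]

end Vale.Agent.P216.L250
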