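import Vale.Agent.P216.L250.Loop

/-!
# Concatenation of loops
-/

namespace Vale.Agent.P216.L250

open Set Filter Topology

variable {M : Type*} [MetricSpace M]

/-- The concatenation as a function of `t ∈ [0, 1]`, with time split `c`. -/
noncomputable def ccf (c : ℝ) (w g : LM M) (t : ℝ) : M :=
  if t ≤ c then fn w (t / c) else fn g ((t - c) / (1 - c))

theorem fn_one (g : LM M) : fn g 1 = fn g 0 := by
  simpa using fn_periodic g 0

theorem continuous_ccf {c : ℝ} (h0 : 0 < c) {w g : LM M} (h : fn w 0 = fn g 0) :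
    Continuous (ccf c w g) := by
  refine Continuous.if_le ((continuous_fn w).comp (by fun_prop))
    ((continuous_fn g).comp (by fun_prop)) continuous_id continuous_const fun t ht => ?_
  rw [ht]
  rw [div_self h0.ne', sub_self, zero_div, fn_one, h]

theorem ccf_zero_one {c : ℝ} (h0 : 0 < c) (h1 : c < 1) {w g : LM M} (h : fn w 0 = fn g 0) :
    ccf c w g 0 = ccf c w g (0 + 1) := by
  rw [ccf, ccf, if_pos h0.le, if_neg (by linarith), zero_div, zero_add,
    div_self (sub_ne_zero.2 h1.ne'), fn_one, h]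

/-- Concatenation: `w` during the time `c`, then `g` during the time `1 - c`. -/
noncomputable def cc (c : ℝ) (w g : LM M) : LM M :=
  open Classical in
  if h : (0 < c ∧ c < 1) ∧ fn w 0 = fn g 0 then
    ⟨AddCircle.liftIco 1 0 (ccf c w g),
      AddCircle.liftIco_continuous (ccf_zero_one h.1.1 h.1.2 h.2)
        (continuous_ccf h.1.1 h.2).continuousOn⟩
  else g

theorem fn_cc {c : ℝ} (hc : 0 < c ∧ c < 1) {w g : LM M} (h : fn w 0 = fn g 0) {t : ℝ}
    (h0 : 0 ≤ t) (h1 : t ≤ 1) : fn (cc c w g) t = ccf c w g t := by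
  have hdef : cc c w g = ⟨AddCircle.liftIco 1 0 (ccf c w g),
      AddCircle.liftIco_continuous (ccf_zero_one hc.1 hc.2 h)
        (continuous_ccf hc.1 h).continuousOn⟩ := dif_pos ⟨hc, h⟩
  have key : ∀ t : ℝ, 0 ≤ t → t < 1 → fn (cc c w g) t = ccf c w g t := by
    intro t h0 h1
    rw [hdef]
    exact AddCircle.liftIco_coe_apply (f := ccf c w g) (by simpa using ⟨h0, h1⟩)
  rcases h1.eq_or_lt with rfl | h1
  · rw [fn_one, key 0 le_rfl one_pos]
    simpa using ccf_zero_one hc.1 hc.2 h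
  · exact key t h0 h1

theorem fn_cc_zero {c : ℝ} (hc : 0 < c ∧ c < 1) {w g : LM M} (h : fn w 0 = fn g 0) :
    fn (cc c w g) 0 = fn g 0 := by
  rw [fn_cc hc h le_rfl zero_le_one, ccf, if_pos hc.1.le, zero_div, h]

theorem fn_cc_left {c : ℝ} (hc : 0 < c ∧ c < 1) {w g : LM M} (h : fn w 0 = fn g 0) {t : ℝ}
    (h0 : 0 ≤ t) (h1 : t ≤ c) : fn (cc c w g) t = fn w (t / c) := by
  rw [fn_cc hc h h0 (h1.trans hc.2.le), ccf, if_pos h1]

theorem fn_cc_right {c : ℝ} (hc : 0 < c ∧ c < 1) {w g : LM M} (h : fn w 0 = fn g 0) {t : ℝ}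
    (h0 : c ≤ t) (h1 : t ≤ 1) : fn (cc c w g) t = fn g ((t - c) / (1 - c)) := by
  rcases h0.eq_or_lt with rfl | h0
  · rw [fn_cc_left hc h hc.1.le le_rfl, div_self hc.1.ne', sub_self, zero_div, fn_one, h]
  · rw [fn_cc hc h (hc.1.le.trans h0.le) h1, ccf, if_neg (not_le.2 h0)]

theorem Cert.add_const {g : ℝ → M} {e : ℝ → ℝ} {a b : ℝ} (h : Cert g e a b) (k : ℝ) :
    Cert g (fun t => e t + k) a b := by
  intro s t hs hst ht
  have := h s t hs hst ht
  simpa using this

theorem hasE_cc {c : ℝ} (hc : 0 < c ∧ c < 1) {w g : LM M} (h : fn w 0 = fn g 0) {B C : ℝ}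
    (hw : HasE (fn w) B) (hg : HasE (fn g) C) :
    HasE (fn (cc c w g)) (B / c + C / (1 - c)) := by
  have hc' : 0 < 1 - c := sub_pos.2 hc.2
  obtain ⟨e1, h10, h11, h12⟩ := hw.cert
  obtain ⟨e2, h20, h21, h22⟩ := hg.cert
  have c1 : Cert (fn (cc c w g)) (fun t => c⁻¹ * e1 (t / c)) 0 c := by
    have := (h11 0 1).comp (φ := fun t => t / c) (a' := 0) (b' := c) (L := c⁻¹) (by
      intro s t hs hst ht
      refine ⟨div_nonneg hs hc.1.le, by gcongr; exact hc.1.le, (div_le_one hc.1).2 ht, le_of_eq ?_⟩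
      ring)
    refine this.congr (fun t ht => ?_) fun t ht => rfl
    rw [fn_cc_left hc h ht.1 ht.2]
  have c2 : Cert (fn (cc c w g)) (fun t => (1 - c)⁻¹ * e2 ((t - c) / (1 - c)) + B / c) c 1 := by
    have := ((h21 0 1).comp (φ := fun t => (t - c) / (1 - c)) (a' := c) (b' := 1)
      (L := (1 - c)⁻¹) (by
        intro s t hs hst ht
        refine ⟨div_nonneg (sub_nonneg.2 hs) hc'.le, by gcongr, (div_le_one hc').2 (by linarith),
          le_of_eq ?_⟩
        ring)).add_const (B / c)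
    refine this.congr (fun t ht => ?_) fun t ht => rfl
    rw [fn_cc_right hc h ht.1 ht.2]
  have e1one : e1 1 = B := by simpa [h10] using h12 0
  have e2one : e2 1 = C := by simpa [h20] using h22 0
  let e : ℝ → ℝ := fun t => if t ≤ c then c⁻¹ * e1 (t / c)
    else (1 - c)⁻¹ * e2 ((t - c) / (1 - c)) + B / c
  have d1 : Cert (fn (cc c w g)) e 0 c := c1.congr (fun _ _ => rfl) fun t ht => by
    simp only [e, if_pos ht.2]
  have d2 : Cert (fn (cc c w g)) e c 1 := c2.congr (fun _ _ => rfl) fun t ht => by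
    rcases ht.1.eq_or_lt with rfl | h3
    · simp only [e, if_pos le_rfl, div_self hc.1.ne', e1one, sub_self, zero_div, h20]
      ring
    · simp only [e, if_neg (not_le.2 h3)]
  refine hasE_of_cert (fn_periodic _) (d1.glue d2) ?_
  simp only [e, if_pos hc.1.le, if_neg (not_le.2 hc.2), zero_div, h10, div_self hc'.ne', e2one]
  ring

theorem cc_split {b s : ℝ} (hb : 0 < b) (hs : 0 < s) : 0 < b / (s + b) ∧ b / (s + b) < 1 :=
  ⟨by positivity, (div_lt_one (by positivity)).2 (by linarith)⟩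

/-- With the time split `b / (s + b)` the square roots of the energies add up. -/
theorem cc_mem {b s : ℝ} (hb : 0 < b) (hs : 0 < s) {w g : LM M} (h : fn w 0 = fn g 0)
    (hw : w ∈ XE M b) (hg : g ∈ XE M s) : cc (b / (s + b)) w g ∈ XE M (s + b) := by
  have := hasE_cc (cc_split hb hs) h hw hg
  rw [mem_XE]
  convert this using 1
  have h1 : (s + b) ≠ 0 := by positivity
  have h2 : 1 - b / (s + b) = s / (s + b) := by field_simp; ring
  rw [h2]
  field_simp
  ring

theorem dist_cc_le {c : ℝ} (hc : 0 < c ∧ c < 1) {w g w' g' : LM M} (h : fn w 0 = fn g 0)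
    (h' : fn w' 0 = fn g' 0) : dist (cc c w g) (cc c w' g') ≤ max (dist w w') (dist g g') := by
  refine dist_le_of_Ico (le_max_of_le_left dist_nonneg) fun t ht => ?_
  rcases le_total t c with h1 | h1
  · rw [fn_cc_left hc h ht.1 h1, fn_cc_left hc h' ht.1 h1]
    exact (dist_fn_le _ _ _).trans (le_max_left _ _)
  · rw [fn_cc_right hc h h1 ht.2.le, fn_cc_right hc h' h1 ht.2.le]
    exact (dist_fn_le _ _ _).trans (le_max_right _ _)

/-! ### Reparametrisations from functions on `[0, 1]` -/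

/-- Extension of `ψ : [0, 1] → [0, 1]` to a map of degree one. -/
noncomputable def ext1 (ψ : ℝ → ℝ) (t : ℝ) : ℝ := ⌊t⌋ + ψ (Int.fract t)

theorem ext1_of_Icc {ψ : ℝ → ℝ} (h0 : ψ 0 = 0) (h1 : ψ 1 = 1) {t : ℝ} (ht0 : 0 ≤ t)
    (ht1 : t ≤ 1) : ext1 ψ t = ψ t := by
  rcases ht1.eq_or_lt with rfl | ht1
  · simp [ext1, h0, h1]
  · have : ⌊t⌋ = 0 := Int.floor_eq_zero_iff.2 ⟨ht0, ht1⟩
    simp [ext1, Int.fract, this]

theorem rep_ext1 {ψ : ℝ → ℝ} {L : ℝ} (h0 : ψ 0 = 0) (h1 : ψ 1 = 1)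
    (hm : ∀ s t, 0 ≤ s → s ≤ t → t ≤ 1 → ψ s ≤ ψ t ∧ ψ t - ψ s ≤ L * (t - s)) :
    Rep L (ext1 ψ) := by
  have hadd : ∀ t, ext1 ψ (t + 1) = ext1 ψ t + 1 := by
    intro t
    simp only [ext1, Int.floor_add_one, Int.fract_add_one]
    push_cast
    ring
  have hint : ∀ n : ℤ, ext1 ψ n = n := by
    intro n
    simp [ext1, h0]
  -- on one interval
  have key : ∀ (n : ℤ) (s t : ℝ), (n : ℝ) ≤ s → s ≤ t → t ≤ n + 1 →
      ext1 ψ s ≤ ext1 ψ t ∧ ext1 ψ t - ext1 ψ s ≤ L * (t - s) := by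
    intro n s t hs hst ht
    have hval : ∀ u : ℝ, (n : ℝ) ≤ u → u ≤ n + 1 → ext1 ψ u = n + ψ (u - n) := by
      intro u h2 h3
      rcases h3.eq_or_lt with h3 | h3
      · have h4 : ext1 ψ u = n + 1 := by
          rw [h3]
          have := hint (n + 1)
          push_cast at this
          exact this
        have h5 : u - n = 1 := by rw [h3]; ring
        rw [h4, h5, h1]
      · have h4 : ⌊u⌋ = n := Int.floor_eq_iff.2 ⟨h2, h3⟩
        simp only [ext1, Int.fract, h4]
    rw [hval s hs (hst.trans ht), hval t (hs.trans hst) ht]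
    obtain ⟨h5, h6⟩ := hm (s - n) (t - n) (by linarith) (by linarith) (by linarith)
    constructor
    · linarith
    · have : L * (t - n - (s - n)) = L * (t - s) := by ring
      linarith
  have key2 : ∀ (k : ℕ) (m : ℤ) (s t : ℝ), (m : ℝ) ≤ s → s ≤ t → t ≤ m + k →
      ext1 ψ s ≤ ext1 ψ t ∧ ext1 ψ t - ext1 ψ s ≤ L * (t - s) := by
    intro k
    induction k with
    | zero =>
      intro m s t hs hst ht
      have : s = t := by push_cast at ht; linarith
      subst this
      simp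
    | succ k ih =>
      intro m s t hs hst ht
      push_cast at ht
      rcases le_total t (m + 1) with h2 | h2
      · exact key m s t hs hst h2
      rcases le_total (m + 1 : ℝ) s with h3 | h3
      · exact ih (m + 1) s t (by push_cast; exact h3) hst (by push_cast; linarith)
      · obtain ⟨a1, a2⟩ := key m s (m + 1) hs h3 le_rfl
        obtain ⟨b1, b2⟩ := ih (m + 1) (m + 1) t (by push_cast; exact le_rfl) h2
          (by push_cast; linarith)
        constructor
        · linarith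
        · nlinarith
  have key3 : ∀ s t : ℝ, s ≤ t → ext1 ψ s ≤ ext1 ψ t ∧ ext1 ψ t - ext1 ψ s ≤ L * (t - s) := by
    intro s t hst
    obtain ⟨n, hn⟩ := exists_nat_ge (t - ⌊s⌋ : ℝ)
    exact key2 n ⌊s⌋ s t (Int.floor_le s) hst (by linarith)
  exact ⟨fun s t hst => (key3 s t hst).1, fun s t hst => (key3 s t hst).2, hadd⟩

/-- Wait during the time `c`, then move with speed `1 / (1 - c)`. -/
noncomputable def wait (c : ℝ) : ℝ → ℝ := ext1 fun t => max 0 ((t - c) / (1 - c))

theorem rep_wait {c : ℝ} (h0 : 0 < c) (h1 : c < 1) : Rep (1 - c)⁻¹ (wait c) := by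
  have hc' : 0 < 1 - c := sub_pos.2 h1
  refine rep_ext1 ?_ ?_ fun s t hs hst ht => ?_
  · exact max_eq_left (div_nonpos_of_nonpos_of_nonneg (by linarith) hc'.le)
  · rw [div_self hc'.ne']
    exact max_eq_right zero_le_one
  · have h2 : (s - c) / (1 - c) ≤ (t - c) / (1 - c) := by gcongr
    constructor
    · exact max_le_max_left _ h2
    · have h3 : (t - c) / (1 - c) - (s - c) / (1 - c) = (1 - c)⁻¹ * (t - s) := by
        field_simp
        ring
      have h4 : 0 ≤ (1 - c)⁻¹ * (t - s) := mul_nonneg (inv_nonneg.2 hc'.le) (by linarith)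
      rw [sub_le_iff_le_add]
      refine max_le ?_ ?_
      · exact add_nonneg h4 (le_max_left _ _)
      · have := le_max_right 0 ((s - c) / (1 - c))
        linarith

/-- The constant loop. -/
def cst (x : M) : LM M := ContinuousMap.const _ x

@[simp] theorem fn_cst (x : M) (t : ℝ) : fn (cst x) t = x := rfl

theorem cst_mem (x : M) (s : ℝ) : cst x ∈ XE M s :=
  ⟨fun t => t * s ^ 2, fun a b hab => by
    simp only [fn_cst, dist_self]
    have := mul_nonneg (sub_nonneg.2 hab) (mul_nonneg (sub_nonneg.2 hab) (sq_nonneg s))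
    nlinarith, fun t => by ring⟩

theorem cc_cst {c : ℝ} (hc : 0 < c ∧ c < 1) (g : LM M) :
    cc c (cst (fn g 0)) g = reparam (rep_wait hc.1 hc.2) g := by
  have hc' : 0 < 1 - c := sub_pos.2 hc.2
  refine dist_le_zero.1 (dist_le_of_Ico le_rfl fun t ht => ?_)
  have h2 : (fun t : ℝ => max 0 ((t - c) / (1 - c))) 0 = 0 :=
    max_eq_left (div_nonpos_of_nonpos_of_nonneg (by linarith [hc.1]) hc'.le)
  have h3 : (fun t : ℝ => max 0 ((t - c) / (1 - c))) 1 = 1 := by
    change max 0 ((1 - c) / (1 - c)) = 1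
    rw [div_self hc'.ne']
    exact max_eq_right zero_le_one
  rw [fn_reparam, wait, ext1_of_Icc h2 h3 ht.1 ht.2.le]
  have hb : fn (cst (fn g 0)) 0 = fn g 0 := rfl
  rcases le_total t c with h1 | h1
  · rw [fn_cc_left hc hb ht.1 h1, fn_cst,
      max_eq_left (div_nonpos_of_nonpos_of_nonneg (by linarith) hc'.le), dist_self]
  · rw [fn_cc_right hc hb h1 ht.2.le, max_eq_right (div_nonneg (by linarith) hc'.le), dist_self]

theorem wait_L {b s : ℝ} (hb : 0 < b) (hs : 0 < s) :
    (1 - b / (s + b))⁻¹ * s ^ 2 ≤ (s + b) ^ 2 := by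
  have h2 : 1 - b / (s + b) = s / (s + b) := by field_simp; ring
  rw [h2]
  have : (s / (s + b))⁻¹ * s ^ 2 = (s + b) * s := by field_simp
  rw [this]
  nlinarith

end Vale.Agent.P216.L250
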