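import Vale.Agent.P216.L250.Concat

/-!
# Exact holonomy of loops of finite energy

`κ : M → M → ℂ` is a kernel of unitary numbers satisfying an area bound on small triangles. The
transport `U κ g a b` along a path `g` of finite energy is multiplicative and is characterised by
`‖U κ g a b - κ (g a) (g b)‖ ≤ A * (b - a) * (e b - e a)`.
-/

namespace Vale.Agent.P216.L250

open Set Filter Topology
open scoped ComplexConjugate

variable {M : Type*} [MetricSpace M]

/-- A transport kernel with an area bound. -/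
structure Ker (κ : M → M → ℂ) (A r : ℝ) : Prop where
  r_pos : 0 < r
  A_nonneg : 0 ≤ A
  norm_one : ∀ x y, ‖κ x y‖ = 1
  symm : ∀ x y, κ y x = conj (κ x y)
  self : ∀ x, κ x x = 1
  area : ∀ x y z, dist x y < r → dist y z < r →
    ‖κ x y * κ y z * κ z x - 1‖ ≤ A * dist x y * dist y z

variable {κ : M → M → ℂ} {A r : ℝ}

theorem Ker.mul_symm (h : Ker κ A r) (x y : M) : κ x y * κ y x = 1 := by
  rw [h.symm x y, Complex.mul_conj, Complex.normSq_eq_norm_sq, h.norm_one]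
  simp

theorem Ker.ne_zero (h : Ker κ A r) (x y : M) : κ x y ≠ 0 := by
  intro h0
  have := h.norm_one x y
  rw [h0, norm_zero] at this
  exact zero_ne_one this

theorem Ker.norm_sub (h : Ker κ A r) (x y z : M) :
    ‖κ x y * κ y z - κ x z‖ = ‖κ x y * κ y z * κ z x - 1‖ := by
  have h1 : κ x y * κ y z * κ z x - 1 = (κ x y * κ y z - κ x z) * κ z x := by
    rw [sub_mul, h.mul_symm]
  rw [h1, norm_mul, h.norm_one, mul_one]

/-- Left to right removal of the intermediate points. -/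
theorem Ker.prod_near (h : Ker κ A r) (u : ℕ → M) {R : ℝ} (m : ℕ) (hR : R < r)
    (h0 : ∀ i ≤ m, dist (u 0) (u i) ≤ R) (h1 : ∀ i < m, dist (u i) (u (i + 1)) < r) :
    ‖(∏ i ∈ Finset.range m, κ (u i) (u (i + 1))) - κ (u 0) (u m)‖ ≤
      A * R * ∑ i ∈ Finset.range m, dist (u i) (u (i + 1)) := by
  induction m with
  | zero => simp [h.self]
  | succ m ih =>
    have ih' := ih (fun i hi => h0 i (by omega)) (fun i hi => h1 i (by omega))
    rw [Finset.prod_range_succ, Finset.sum_range_succ]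
    have e1 : (∏ i ∈ Finset.range m, κ (u i) (u (i + 1))) * κ (u m) (u (m + 1)) -
        κ (u 0) (u (m + 1)) = ((∏ i ∈ Finset.range m, κ (u i) (u (i + 1))) - κ (u 0) (u m)) *
        κ (u m) (u (m + 1)) + (κ (u 0) (u m) * κ (u m) (u (m + 1)) - κ (u 0) (u (m + 1))) := by
      ring
    rw [e1]
    refine (norm_add_le _ _).trans ?_
    rw [norm_mul, h.norm_one, mul_one, h.norm_sub, mul_add]
    refine add_le_add ih' ?_
    refine (h.area _ _ _ ((h0 m (by omega)).trans_lt hR) (h1 m (by omega))).trans ?_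
    have := h0 m (by omega)
    have hA := h.A_nonneg
    gcongr

/-! ### The approximations -/

/-- The `n`-th approximation of the transport from `a` to `b`. -/
noncomputable def Un (κ : M → M → ℂ) (g : ℝ → M) (n : ℕ) (a b : ℝ) : ℂ :=
  κ (g a) (g (⌊n * a⌋ / n)) * (∏ i ∈ Finset.Ico ⌊n * a⌋ ⌊n * b⌋, κ (g (i / n)) (g ((i + 1) / n))) *
    κ (g (⌊n * b⌋ / n)) (g b)

theorem Ker.norm_Un (h : Ker κ A r) (g : ℝ → M) (n : ℕ) (a b : ℝ) : ‖Un κ g n a b‖ = 1 := by
  simp [Un, h.norm_one, norm_prod]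

theorem Ker.Un_self (h : Ker κ A r) (g : ℝ → M) (n : ℕ) (a : ℝ) : Un κ g n a a = 1 := by
  simp [Un, h.mul_symm]

theorem Ker.Un_mul (h : Ker κ A r) (g : ℝ → M) (n : ℕ) {a b c : ℝ} (hab : a ≤ b) (hbc : b ≤ c) :
    Un κ g n a b * Un κ g n b c = Un κ g n a c := by
  have h1 : ⌊n * a⌋ ≤ ⌊n * b⌋ :=
    Int.floor_le_floor (mul_le_mul_of_nonneg_left hab (Nat.cast_nonneg n))
  have h2 : ⌊n * b⌋ ≤ ⌊n * c⌋ :=
    Int.floor_le_floor (mul_le_mul_of_nonneg_left hbc (Nat.cast_nonneg n))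
  have h3 := Finset.prod_union
    (Finset.disjoint_left.2 (fun x hx hx' => absurd ((Finset.mem_Ico.1 hx).2)
      (not_lt.2 (Finset.mem_Ico.1 hx').1)) : Disjoint (Finset.Ico ⌊n * a⌋ ⌊n * b⌋)
        (Finset.Ico ⌊n * b⌋ ⌊n * c⌋)) (f := fun i : ℤ => κ (g (i / n)) (g ((i + 1) / n)))
  rw [Finset.Ico_union_Ico_eq_Ico h1 h2] at h3
  simp only [Un]
  rw [h3]
  have h4 := h.mul_symm (g (⌊n * b⌋ / n)) (g b)
  linear_combination (κ (g a) (g (⌊n * a⌋ / n)) *
    (∏ i ∈ Finset.Ico ⌊n * a⌋ ⌊n * b⌋, κ (g (i / n)) (g ((i + 1) / n))) *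
    (∏ i ∈ Finset.Ico ⌊n * b⌋ ⌊n * c⌋, κ (g (i / n)) (g ((i + 1) / n))) *
    κ (g (⌊n * c⌋ / n)) (g c)) * h4

/-- The transport along `g` from `a` to `b`. -/
noncomputable def U (κ : M → M → ℂ) (g : ℝ → M) (a b : ℝ) : ℂ :=
  limUnder (hyperfilter ℕ : Filter ℕ) (fun n => Un κ g n a b)

theorem Ker.tendsto_U (h : Ker κ A r) (g : ℝ → M) (a b : ℝ) :
    Tendsto (fun n => Un κ g n a b) (hyperfilter ℕ : Filter ℕ) (𝓝 (U κ g a b)) := by
  obtain ⟨y, _, hy⟩ := (isCompact_closedBall (0 : ℂ) 1).ultrafilter_le_nhds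
    ((hyperfilter ℕ).map fun n => Un κ g n a b)
    (le_principal_iff.2 (Ultrafilter.mem_map.2 (univ_mem' fun n => by
      simp [h.norm_Un])))
  exact tendsto_nhds_limUnder ⟨y, hy⟩

theorem Ker.norm_U (h : Ker κ A r) (g : ℝ → M) (a b : ℝ) : ‖U κ g a b‖ = 1 := by
  have h1 := (h.tendsto_U g a b).norm
  simp only [h.norm_Un] at h1
  exact tendsto_nhds_unique h1 tendsto_const_nhds |>.symm ▸ rfl

theorem Ker.U_self (h : Ker κ A r) (g : ℝ → M) (a : ℝ) : U κ g a a = 1 := by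
  have h1 := h.tendsto_U g a a
  simp only [h.Un_self] at h1
  exact tendsto_nhds_unique h1 tendsto_const_nhds

theorem Ker.U_mul (h : Ker κ A r) (g : ℝ → M) {a b c : ℝ} (hab : a ≤ b) (hbc : b ≤ c) :
    U κ g a b * U κ g b c = U κ g a c := by
  have h1 := (h.tendsto_U g a b).mul (h.tendsto_U g b c)
  simp only [h.Un_mul g _ hab hbc] at h1
  exact tendsto_nhds_unique h1 (h.tendsto_U g a c)

/-- Steps of a path with a certificate. -/
theorem Cert.dist_le_sqrt {g : ℝ → M} {e : ℝ → ℝ} {a b : ℝ} (h : Cert g e a b) {s t : ℝ}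
    (hs : a ≤ s) (hst : s ≤ t) (ht : t ≤ b) :
    dist (g s) (g t) ≤ Real.sqrt ((b - a) * (e b - e a)) := by
  refine Real.le_sqrt_of_sq_le ((h s t hs hst ht).trans ?_)
  have h1 := h.mono_fun hs hst ht
  have h2 := h.mono_fun le_rfl hs (hst.trans ht)
  have h3 := h.mono_fun (hs.trans hst) ht le_rfl
  exact mul_le_mul (by linarith) (by linarith) (by linarith) (by linarith)

/-- The length of a finite subdivision. -/
theorem Cert.sum_dist_le {g : ℝ → M} {e : ℝ → ℝ} {a b : ℝ} (h : Cert g e a b) (hab : a ≤ b)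
    (t : ℕ → ℝ) (m : ℕ) (hm : ∀ i ≤ m, ∀ j ≤ m, i ≤ j → t i ≤ t j) (h0 : a ≤ t 0) (h1 : t m ≤ b) :
    ∑ i ∈ Finset.range m, dist (g (t i)) (g (t (i + 1))) ≤
      Real.sqrt ((b - a) * (e b - e a)) := by
  have hmem : ∀ i ≤ m, a ≤ t i ∧ t i ≤ b := fun i hi =>
    ⟨h0.trans (hm 0 (Nat.zero_le _) i hi (Nat.zero_le _)), (hm i hi m le_rfl hi).trans h1⟩
  -- Cauchy-Schwarz for `sqrt (α_i) * sqrt (β_i)`
  have h2 : ∀ i ∈ Finset.range m, dist (g (t i)) (g (t (i + 1))) ≤
      Real.sqrt (t (i + 1) - t i) * Real.sqrt (e (t (i + 1)) - e (t i)) := by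
    intro i hi
    have hi' := Finset.mem_range.1 hi
    have h3 := h (t i) (t (i + 1)) (hmem i hi'.le).1 (hm i hi'.le (i + 1) hi' (Nat.le_succ i))
      (hmem (i + 1) hi').2
    rw [← Real.sqrt_mul (sub_nonneg.2 (hm i hi'.le (i + 1) hi' (Nat.le_succ i)))]
    exact Real.le_sqrt_of_sq_le h3
  refine (Finset.sum_le_sum h2).trans ?_
  refine Real.le_sqrt_of_sq_le ?_
  refine (Finset.sum_mul_sq_le_sq_mul_sq _ _ _).trans ?_
  have h4 : ∑ i ∈ Finset.range m, Real.sqrt (t (i + 1) - t i) ^ 2 = t m - t 0 := by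
    rw [← Finset.sum_range_sub]
    refine Finset.sum_congr rfl fun i hi => ?_
    have hi' := Finset.mem_range.1 hi
    rw [Real.sq_sqrt (sub_nonneg.2 (hm i hi'.le (i + 1) hi' (Nat.le_succ i)))]
  have h5 : ∑ i ∈ Finset.range m, Real.sqrt (e (t (i + 1)) - e (t i)) ^ 2 = e (t m) - e (t 0) := by
    rw [← Finset.sum_range_sub (fun i => e (t i))]
    refine Finset.sum_congr rfl fun i hi => ?_
    have hi' := Finset.mem_range.1 hi
    rw [Real.sq_sqrt (sub_nonneg.2 (h.mono_fun (hmem i hi'.le).1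
      (hm i hi'.le (i + 1) hi' (Nat.le_succ i)) (hmem (i + 1) hi').2))]
  rw [h4, h5]
  have h6 := h.mono_fun le_rfl (hmem 0 (Nat.zero_le _)).1 (hmem 0 (Nat.zero_le _)).2
  have h7 := h.mono_fun (hmem m le_rfl).1 (hmem m le_rfl).2 le_rfl
  have h8 := h.mono_fun (hmem 0 (Nat.zero_le _)).1 (hm 0 (Nat.zero_le _) m le_rfl (Nat.zero_le _))
    (hmem m le_rfl).2
  exact mul_le_mul (by linarith [(hmem 0 (Nat.zero_le _)).1]) (by linarith) (by linarith)
    (by linarith)

/-- Product over an integer interval as a product over a range. -/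
theorem prod_Ico_int (f : ℤ → ℂ) (j : ℤ) (m : ℕ) :
    ∏ i ∈ Finset.Ico j (j + m), f i = ∏ i ∈ Finset.range m, f (j + i) := by
  induction m with
  | zero => simp
  | succ m ih =>
    rw [Finset.prod_range_succ, ← ih]
    have h1 : Finset.Ico j (j + (m + 1 : ℕ)) = insert (j + m) (Finset.Ico j (j + m)) := by
      ext x
      simp only [Finset.mem_Ico, Finset.mem_insert]
      push_cast
      omega
    rw [h1, Finset.prod_insert (by simp)]
    ring

/-- The approximations are close to `κ`. -/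
theorem Ker.Un_near (h : Ker κ A r) {g : ℝ → M} {e : ℝ → ℝ} {C : ℝ}
    (he : ∀ a b, Cert g e a b) (hC : ∀ t, e (t + 1) = e t + C) {a b : ℝ} (hab : a ≤ b) {n : ℕ}
    (hn : 0 < n) (hr : Real.sqrt ((b - a) * (e b - e a)) + Real.sqrt (C / n) < r) :
    ‖Un κ g n a b - κ (g a) (g b)‖ ≤ A * (Real.sqrt ((b - a) * (e b - e a)) + Real.sqrt (C / n)) *
      (Real.sqrt ((b - a) * (e b - e a)) + 3 * Real.sqrt (C / n)) := by
  have hn' : (0 : ℝ) < n := Nat.cast_pos.2 hn
  set ω := Real.sqrt ((b - a) * (e b - e a)) with hω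
  set ε := Real.sqrt (C / n) with hε
  have hω0 : 0 ≤ ω := Real.sqrt_nonneg _
  have hε0 : 0 ≤ ε := Real.sqrt_nonneg _
  -- short steps
  have hstep : ∀ x y : ℝ, x ≤ y → y ≤ x + 1 / n → dist (g x) (g y) ≤ ε := by
    intro x y hxy hy
    refine Real.le_sqrt_of_sq_le (((he x y) x y le_rfl hxy le_rfl).trans ?_)
    have h1 : y ≤ x + 1 := by
      refine hy.trans ?_
      have : (1 : ℝ) / n ≤ 1 := by
        rw [div_le_one hn']
        exact_mod_cast hn
      linarith
    have h2 := (he x (x + 1)).mono_fun hxy h1 le_rfl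
    have h3 := (he x y).mono_fun le_rfl hxy le_rfl
    rw [hC] at h2
    calc (y - x) * (e y - e x) ≤ (1 / n) * C :=
          mul_le_mul (by linarith) (by linarith) (by linarith) (by positivity)
      _ = C / n := by ring
  set j := ⌊n * a⌋ with hj
  set k := ⌊n * b⌋ with hk
  have hjk : j ≤ k := Int.floor_le_floor (mul_le_mul_of_nonneg_left hab hn'.le)
  obtain ⟨m, hm⟩ := Int.eq_ofNat_of_zero_le (sub_nonneg.2 hjk)
  have hkm : k = j + m := by omega
  have hja : (j : ℝ) / n ≤ a := by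
    rw [div_le_iff₀ hn', mul_comm]
    exact Int.floor_le _
  have hja' : a < ((j : ℝ) + 1) / n := by
    rw [lt_div_iff₀ hn', mul_comm]
    exact Int.lt_floor_add_one _
  have hkb : (k : ℝ) / n ≤ b := by
    rw [div_le_iff₀ hn', mul_comm]
    exact Int.floor_le _
  have hkb' : b < ((k : ℝ) + 1) / n := by
    rw [lt_div_iff₀ hn', mul_comm]
    exact Int.lt_floor_add_one _
  -- the sequence of points
  let t : ℕ → ℝ := fun i => if i = 0 then a else if i = m + 2 then b else (j + (i - 1 : ℕ)) / n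
  have t0 : t 0 = a := if_pos rfl
  have tl : t (m + 2) = b := by
    simp [t]
  have ti : ∀ i, i ≤ m → t (i + 1) = ((j : ℝ) + i) / n := by
    intro i hi
    have h1 : ¬ (i + 1 = 0) := by omega
    have h2 : ¬ (i + 1 = m + 2) := by omega
    simp only [t, if_neg h1, if_neg h2]
    norm_num
  have hUn : Un κ g n a b = ∏ i ∈ Finset.range (m + 2), κ (g (t i)) (g (t (i + 1))) := by
    rw [Un, ← hj, ← hk, hkm, prod_Ico_int, Finset.prod_range_succ, Finset.prod_range_succ', t0]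
    have e1 : t (m + 1) = ((j + m : ℤ) : ℝ) / n := by
      rw [ti m le_rfl]; push_cast; rfl
    have e2 : t (0 + 1) = (j : ℝ) / n := by
      rw [ti 0 (Nat.zero_le _)]; simp
    rw [show m + 1 + 1 = m + 2 from rfl, tl, e1, e2]
    have e3 : ∏ x ∈ Finset.range m, κ (g (t (x + 1))) (g (t (x + 1 + 1))) =
        ∏ i ∈ Finset.range m, κ (g (((j + i : ℤ) : ℝ) / n)) (g ((((j + i : ℤ) : ℝ) + 1) / n)) := by
      refine Finset.prod_congr rfl fun i hi => ?_
      have hi' := Finset.mem_range.1 hi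
      rw [ti i hi'.le, ti (i + 1) hi']
      push_cast
      rw [add_assoc]
    rw [e3]
    ring
  -- distances from the starting point
  have hd0 : ∀ i ≤ m + 2, dist (g (t 0)) (g (t i)) ≤ ω + ε := by
    intro i hi
    rw [t0]
    rcases Nat.eq_zero_or_pos i with rfl | hi0
    · rw [t0, dist_self]; linarith
    rcases Nat.eq_or_lt_of_le hi with rfl | hi2
    · rw [tl]
      have := (he a b).dist_le_sqrt le_rfl hab le_rfl
      linarith
    · obtain ⟨i, rfl⟩ : ∃ i', i = i' + 1 := ⟨i - 1, by omega⟩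
      rw [ti i (by omega)]
      rcases Nat.eq_zero_or_pos i with rfl | hi3
      · have := hstep (j / n) a hja (by
          have : (j : ℝ) / n + 1 / n = (j + 1) / n := by ring
          rw [this]; exact hja'.le)
        rw [dist_comm] at this
        simp only [Nat.cast_zero, add_zero]
        linarith
      · have h1 : a ≤ ((j : ℝ) + i) / n := by
          refine hja'.le.trans ?_
          gcongr
          exact_mod_cast hi3
        have h2 : ((j : ℝ) + i) / n ≤ b := by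
          refine le_trans ?_ hkb
          rw [hkm]
          push_cast
          gcongr
          exact_mod_cast (by omega : i ≤ m)
        have := (he a b).dist_le_sqrt le_rfl h1 h2
        linarith
  -- single steps
  have hs1 : dist (g (t 0)) (g (t 1)) ≤ ε := by
    rw [t0, show t 1 = (j : ℝ) / n by rw [ti 0 (Nat.zero_le _)]; simp, dist_comm]
    refine hstep _ _ hja ?_
    have : (j : ℝ) / n + 1 / n = (j + 1) / n := by ring
    rw [this]; exact hja'.le
  have hs2 : ∀ i < m, dist (g (t (i + 1))) (g (t (i + 2))) ≤ ε := by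
    intro i hi
    rw [ti i hi.le, ti (i + 1) hi]
    refine hstep _ _ ?_ ?_
    · push_cast; gcongr; linarith
    · push_cast
      refine le_of_eq ?_
      ring
  have hs3 : dist (g (t (m + 1))) (g (t (m + 2))) ≤ ε := by
    rw [ti m le_rfl, tl]
    have e1 : (k : ℝ) = j + m := by rw [hkm]; push_cast; rfl
    rw [← e1]
    refine hstep _ _ hkb ?_
    have : (k : ℝ) / n + 1 / n = (k + 1) / n := by ring
    rw [this]; exact hkb'.le
  have hstep' : ∀ i < m + 2, dist (g (t i)) (g (t (i + 1))) < r := by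
    intro i hi
    rcases Nat.eq_zero_or_pos i with rfl | hi0
    · exact lt_of_le_of_lt hs1 (by linarith)
    obtain ⟨i, rfl⟩ : ∃ i', i = i' + 1 := ⟨i - 1, by omega⟩
    rcases Nat.lt_or_ge i m with hi2 | hi2
    · exact lt_of_le_of_lt (hs2 i hi2) (by linarith)
    · obtain rfl : i = m := by omega
      exact lt_of_le_of_lt hs3 (by linarith)
  have key := h.prod_near (fun i => g (t i)) (m + 2) hr hd0 hstep'
  rw [← hUn, t0, tl] at key
  refine key.trans ?_
  have hA := h.A_nonneg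
  gcongr
  -- the total length
  rw [Finset.sum_range_succ, Finset.sum_range_succ']
  rcases Nat.eq_zero_or_pos m with rfl | hm0
  · simp only [Finset.range_zero, Finset.sum_empty, zero_add]
    have := hs3
    simp only [zero_add] at this
    linarith
  · obtain ⟨m, rfl⟩ : ∃ m', m = m' + 1 := ⟨m - 1, by omega⟩
    rw [Finset.sum_range_succ']
    have hlen : ∑ i ∈ Finset.range m, dist (g (t (i + 1 + 1))) (g (t (i + 1 + 1 + 1))) ≤ ω := by
      refine (he a b).sum_dist_le hab (fun i => t (i + 2)) m ?_ ?_ ?_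
      · intro i hi i' hi' hii'
        rw [show i + 2 = (i + 1) + 1 from rfl, show i' + 2 = (i' + 1) + 1 from rfl,
          ti (i + 1) (by omega), ti (i' + 1) (by omega)]
        gcongr
      · rw [show 0 + 2 = 1 + 1 from rfl, ti 1 (by omega)]
        simpa using hja'.le
      · rw [show m + 2 = (m + 1) + 1 from rfl, ti (m + 1) le_rfl]
        refine le_trans (le_of_eq ?_) hkb
        rw [hkm]
        push_cast
        rfl
    have := hs2 0 (by omega)
    have := hs3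
    simp only [zero_add] at *
    linarith

theorem tendsto_sqrt_div (C : ℝ) : Tendsto (fun n : ℕ => Real.sqrt (C / n)) atTop (𝓝 0) := by
  have h1 : Tendsto (fun n : ℕ => C / (n : ℝ)) atTop (𝓝 0) :=
    tendsto_const_div_atTop_nhds_zero_nat C
  have h2 := (Real.continuous_sqrt.tendsto 0).comp h1
  rw [Real.sqrt_zero] at h2
  exact h2

theorem hyper_le_atTop : (hyperfilter ℕ : Filter ℕ) ≤ atTop := by
  rw [← Nat.cofinite_eq_atTop]
  exact hyperfilter_le_cofinite

/-- The transport is close to `κ`. -/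
theorem Ker.U_near (h : Ker κ A r) {g : ℝ → M} {e : ℝ → ℝ} {C : ℝ}
    (he : ∀ a b, Cert g e a b) (hC : ∀ t, e (t + 1) = e t + C) {a b : ℝ} (hab : a ≤ b)
    (hr : Real.sqrt ((b - a) * (e b - e a)) < r) :
    ‖U κ g a b - κ (g a) (g b)‖ ≤ A * ((b - a) * (e b - e a)) := by
  have hε := tendsto_sqrt_div C
  have h1 : ∀ᶠ n : ℕ in (hyperfilter ℕ : Filter ℕ),
      ‖Un κ g n a b - κ (g a) (g b)‖ ≤
        A * (Real.sqrt ((b - a) * (e b - e a)) + Real.sqrt (C / n)) *
        (Real.sqrt ((b - a) * (e b - e a)) + 3 * Real.sqrt (C / n)) := by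
    refine hyper_le_atTop ?_
    have h2 := hε.const_add (Real.sqrt ((b - a) * (e b - e a)))
    rw [add_zero] at h2
    filter_upwards [h2 (gt_mem_nhds hr), eventually_gt_atTop 0] with n hn hn0
    exact h.Un_near he hC hab hn0 hn
  have h3 : Tendsto (fun n : ℕ => A * (Real.sqrt ((b - a) * (e b - e a)) + Real.sqrt (C / n)) *
      (Real.sqrt ((b - a) * (e b - e a)) + 3 * Real.sqrt (C / n))) atTop
      (𝓝 (A * ((b - a) * (e b - e a)))) := by
    have h4 := ((hε.const_add (Real.sqrt ((b - a) * (e b - e a)))).const_mul A).mul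
      ((hε.const_mul 3).const_add (Real.sqrt ((b - a) * (e b - e a))))
    have h5 : 0 ≤ (b - a) * (e b - e a) :=
      mul_nonneg (sub_nonneg.2 hab) (sub_nonneg.2 ((he a b).mono_fun le_rfl hab le_rfl))
    have h6 : A * (Real.sqrt ((b - a) * (e b - e a)) + 0) *
        (Real.sqrt ((b - a) * (e b - e a)) + 3 * 0) = A * ((b - a) * (e b - e a)) := by
      rw [add_zero, mul_zero, add_zero, mul_assoc, Real.mul_self_sqrt h5]
    rw [h6] at h4
    exact h4
  exact le_of_tendsto_of_tendsto (((h.tendsto_U g a b).sub_const _).norm)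
    (h3.mono_left hyper_le_atTop) h1

/-! ### Comparison of multiplicative functions -/

/-- A unitary multiplicative function of an interval. -/
structure Mult (V : ℝ → ℝ → ℂ) (a b : ℝ) : Prop where
  norm_one : ∀ x y, a ≤ x → x ≤ y → y ≤ b → ‖V x y‖ = 1
  mul : ∀ x y z, a ≤ x → x ≤ y → y ≤ z → z ≤ b → V x y * V y z = V x z

theorem Mult.telescope {V W : ℝ → ℝ → ℂ} {a b : ℝ} (hV : Mult V a b) (hW : Mult W a b)
    (t : ℕ → ℝ) (m : ℕ) (h0 : a ≤ t 0) (hm : ∀ i < m, t i ≤ t (i + 1)) (h1 : t m ≤ b)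
    (hz : V (t 0) (t 0) = W (t 0) (t 0)) :
    ‖V (t 0) (t m) - W (t 0) (t m)‖ ≤
      ∑ i ∈ Finset.range m, ‖V (t i) (t (i + 1)) - W (t i) (t (i + 1))‖ := by
  have hmono : ∀ k, k ≤ m → t 0 ≤ t k := by
    intro k
    induction k with
    | zero => intro _; exact le_rfl
    | succ k ih => intro hk; exact (ih (by omega)).trans (hm k (by omega))
  have hmono' : ∀ k, k ≤ m → t k ≤ b := by
    intro k hk
    refine le_trans ?_ h1
    obtain ⟨d, rfl⟩ := Nat.exists_eq_add_of_le hk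
    clear hk h1 hmono
    induction d with
    | zero => exact le_rfl
    | succ d ih => exact (ih (fun i hi => hm i (by omega))).trans (hm (k + d) (by omega))
  induction m with
  | zero => simp [hz]
  | succ m ih =>
    rw [Finset.sum_range_succ]
    have ih' := ih (fun i hi => hm i (by omega)) (hmono' m (by omega))
      (fun k hk => hmono k (by omega)) (fun k hk => hmono' k (by omega))
    have a0 := hmono m (by omega)
    have a1 := hm m (by omega)
    have a2 := hmono' (m + 1) le_rfl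
    rw [← hV.mul _ _ _ h0 a0 a1 a2, ← hW.mul _ _ _ h0 a0 a1 a2]
    have e1 : V (t 0) (t m) * V (t m) (t (m + 1)) - W (t 0) (t m) * W (t m) (t (m + 1)) =
        (V (t 0) (t m) - W (t 0) (t m)) * V (t m) (t (m + 1)) +
        W (t 0) (t m) * (V (t m) (t (m + 1)) - W (t m) (t (m + 1))) := by ring
    rw [e1]
    refine (norm_add_le _ _).trans ?_
    rw [norm_mul, norm_mul, hV.norm_one _ _ (h0.trans a0) a1 a2, mul_one,
      hW.norm_one _ _ h0 a0 (a1.trans a2), one_mul]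
    exact add_le_add ih' le_rfl

/-- Comparison lemma. -/
theorem Mult.compare {V W : ℝ → ℝ → ℂ} {a b : ℝ} (hV : Mult V a b) (hW : Mult W a b)
    {e : ℝ → ℝ} (hab : a ≤ b) (he : ∀ x y, a ≤ x → x ≤ y → y ≤ b → e x ≤ e y) {D F δ : ℝ}
    (hD : 0 ≤ D) (hδ : 0 < δ) (hz : V a a = W a a)
    (h : ∀ x y, a ≤ x → x ≤ y → y ≤ b → y - x ≤ δ → ‖V x y - W x y‖ ≤
      D * Real.sqrt ((y - x) * (e y - e x)) + F * ((y - x) * (e y - e x))) :
    ‖V a b - W a b‖ ≤ D * Real.sqrt ((b - a) * (e b - e a)) := by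
  have hL : Tendsto (fun n : ℕ => (b - a) / (n : ℝ)) atTop (𝓝 0) :=
    tendsto_const_div_atTop_nhds_zero_nat _
  have key : ∀ᶠ n : ℕ in atTop, ‖V a b - W a b‖ ≤
      D * Real.sqrt ((b - a) * (e b - e a)) + F * ((b - a) / n * (e b - e a)) := by
    filter_upwards [hL (gt_mem_nhds hδ), eventually_gt_atTop 0] with n hn hn0
    have hn' : (0 : ℝ) < n := Nat.cast_pos.2 hn0
    let t : ℕ → ℝ := fun i => a + i * ((b - a) / n)
    have t0 : t 0 = a := by simp [t]
    have tn : t n = b := by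
      simp only [t]
      rw [mul_div_cancel₀ _ hn'.ne']
      ring
    have hstep : ∀ i, t (i + 1) - t i = (b - a) / n := by
      intro i; simp only [t]; push_cast; ring
    have hs0 : 0 ≤ (b - a) / n := div_nonneg (sub_nonneg.2 hab) hn'.le
    have hle : ∀ i, t i ≤ t (i + 1) := fun i => by linarith [hstep i]
    have hmono : Monotone t := monotone_nat_of_le_succ hle
    have h1 := hV.telescope hW t n (by rw [t0]) (fun i _ => hle i) (by rw [tn])
      (by rw [t0]; exact hz)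
    rw [t0, tn] at h1
    have hmem : ∀ i ≤ n, a ≤ t i ∧ t i ≤ b := fun i hi =>
      ⟨t0 ▸ hmono (Nat.zero_le i), tn ▸ hmono hi⟩
    refine h1.trans ?_
    have h2 : ∀ i ∈ Finset.range n, ‖V (t i) (t (i + 1)) - W (t i) (t (i + 1))‖ ≤
        D * (Real.sqrt ((b - a) / n) * Real.sqrt (e (t (i + 1)) - e (t i))) +
          F * ((b - a) / n * (e (t (i + 1)) - e (t i))) := by
      intro i hi
      have hi' := Finset.mem_range.1 hi
      have h3 := h (t i) (t (i + 1)) (hmem i hi'.le).1 (hle i) (hmem (i + 1) hi').2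
        (by rw [hstep]; exact hn.le)
      rw [hstep, Real.sqrt_mul hs0] at h3
      exact h3
    refine (Finset.sum_le_sum h2).trans ?_
    rw [Finset.sum_add_distrib, ← Finset.mul_sum, ← Finset.mul_sum, ← Finset.mul_sum,
      ← Finset.mul_sum, Finset.sum_range_sub (fun i => e (t i)), t0, tn]
    have h4 : Real.sqrt ((b - a) / n) * ∑ i ∈ Finset.range n, Real.sqrt (e (t (i + 1)) - e (t i)) ≤
        Real.sqrt ((b - a) * (e b - e a)) := by
      refine Real.le_sqrt_of_sq_le ?_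
      rw [mul_pow, Real.sq_sqrt hs0]
      have h5 := sq_sum_le_card_mul_sum_sq (s := Finset.range n)
        (f := fun i => Real.sqrt (e (t (i + 1)) - e (t i)))
      have h6 : ∑ i ∈ Finset.range n, Real.sqrt (e (t (i + 1)) - e (t i)) ^ 2 = e b - e a := by
        have : ∑ i ∈ Finset.range n, Real.sqrt (e (t (i + 1)) - e (t i)) ^ 2 =
            ∑ i ∈ Finset.range n, (e (t (i + 1)) - e (t i)) := by
          refine Finset.sum_congr rfl fun i hi => ?_
          have hi' := Finset.mem_range.1 hi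
          rw [Real.sq_sqrt (sub_nonneg.2 (he _ _ (hmem i hi'.le).1 (hle i) (hmem (i + 1) hi').2))]
        rw [this, Finset.sum_range_sub (fun i => e (t i)), t0, tn]
      rw [h6, Finset.card_range] at h5
      calc (b - a) / n * (∑ i ∈ Finset.range n, Real.sqrt (e (t (i + 1)) - e (t i))) ^ 2
          ≤ (b - a) / n * (n * (e b - e a)) := mul_le_mul_of_nonneg_left h5 hs0
        _ = (b - a) * (e b - e a) := by field_simp
    gcongr
  have h7 : Tendsto (fun n : ℕ => D * Real.sqrt ((b - a) * (e b - e a)) +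
      F * ((b - a) / n * (e b - e a))) atTop (𝓝 (D * Real.sqrt ((b - a) * (e b - e a)))) := by
    have := ((hL.mul_const (e b - e a)).const_mul F).const_add
      (D * Real.sqrt ((b - a) * (e b - e a)))
    simpa using this
  exact ge_of_tendsto h7 key

/-- Uniqueness: two multiplicative functions close to second order agree. -/
theorem Mult.eq_of_near {V W : ℝ → ℝ → ℂ} {a b : ℝ} (hV : Mult V a b) (hW : Mult W a b)
    {e : ℝ → ℝ} (hab : a ≤ b) (he : ∀ x y, a ≤ x → x ≤ y → y ≤ b → e x ≤ e y) {F δ : ℝ}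
    (hδ : 0 < δ) (hz : V a a = W a a)
    (h : ∀ x y, a ≤ x → x ≤ y → y ≤ b → y - x ≤ δ → ‖V x y - W x y‖ ≤
      F * ((y - x) * (e y - e x))) : V a b = W a b := by
  have := hV.compare hW hab he (D := 0) le_rfl hδ hz (fun x y h1 h2 h3 h4 => by
    simpa using h x y h1 h2 h3 h4)
  rw [zero_mul] at this
  exact sub_eq_zero.1 (norm_le_zero_iff.1 this)

theorem Ker.mult_U (h : Ker κ A r) (g : ℝ → M) (a b : ℝ) : Mult (U κ g) a b where
  norm_one _ _ _ _ _ := h.norm_U _ _ _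
  mul _ _ _ _ h1 h2 _ := h.U_mul g h1 h2

/-- On a short interval the energy term is small. -/
theorem exists_small {e : ℝ → ℝ} {C r a b : ℝ} (hr : 0 < r)
    (hm : ∀ x y, a ≤ x → x ≤ y → y ≤ b → e x ≤ e y) (hC : e b - e a ≤ C) :
    ∃ δ : ℝ, 0 < δ ∧ ∀ x y, a ≤ x → x ≤ y → y ≤ b → y - x ≤ δ →
      Real.sqrt ((y - x) * (e y - e x)) < r := by
  refine ⟨r ^ 2 / (2 * (|C| + 1)), by positivity, fun x y h1 h2 h3 h4 => ?_⟩
  rw [Real.sqrt_lt' hr]
  have h5 : e y - e x ≤ |C| + 1 := by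
    have := hm a x le_rfl h1 (h2.trans h3)
    have := hm y b (h1.trans h2) h3 le_rfl
    have := le_abs_self C
    linarith
  have h6 : 0 ≤ e y - e x := sub_nonneg.2 (hm x y h1 h2 h3)
  have h7 : 0 < |C| + 1 := by positivity
  calc (y - x) * (e y - e x) ≤ (r ^ 2 / (2 * (|C| + 1))) * (|C| + 1) :=
        mul_le_mul h4 h5 h6 (by positivity)
    _ = r ^ 2 / 2 := by field_simp
    _ < r ^ 2 := by linarith [pow_pos hr 2]

/-- `g` and `g'` are of finite energy and `g' = g ∘ φ` on `[a, b]`, with `φ` monotone Lipschitz. -/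
theorem Ker.U_comp (h : Ker κ A r) {g g' : ℝ → M} {C C' : ℝ} (hg : HasE g C) (hg' : HasE g' C')
    {φ : ℝ → ℝ} {L a b : ℝ} (hab : a ≤ b)
    (hφ : ∀ x y, a ≤ x → x ≤ y → y ≤ b → φ x ≤ φ y ∧ φ y - φ x ≤ L * (y - x))
    (hc : ∀ x, a ≤ x → x ≤ b → g' x = g (φ x)) : U κ g' a b = U κ g (φ a) (φ b) := by
  obtain ⟨e, he0, he, heC⟩ := hg.cert
  obtain ⟨e', he0', he', heC'⟩ := hg'.cert
  have m1 : ∀ x y, x ≤ y → e x ≤ e y := fun x y hxy => (he x y).mono_fun le_rfl hxy le_rfl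
  have m2 : ∀ x y, x ≤ y → e' x ≤ e' y := fun x y hxy => (he' x y).mono_fun le_rfl hxy le_rfl
  have mφ : ∀ x y, a ≤ x → x ≤ y → y ≤ b → φ x ≤ φ y := fun x y h1 h2 h3 => (hφ x y h1 h2 h3).1
  have hL : 0 ≤ |L| := abs_nonneg L
  have lφ : ∀ x y, a ≤ x → x ≤ y → y ≤ b → φ y - φ x ≤ |L| * (y - x) := fun x y h1 h2 h3 =>
    (hφ x y h1 h2 h3).2.trans (mul_le_mul_of_nonneg_right (le_abs_self L) (sub_nonneg.2 h2))
  -- the sum of the two certificates
  let E : ℝ → ℝ := fun t => e' t + |L| * e (φ t)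
  have mE : ∀ x y, a ≤ x → x ≤ y → y ≤ b → E x ≤ E y := fun x y h1 h2 h3 =>
    add_le_add (m2 x y h2) (mul_le_mul_of_nonneg_left (m1 _ _ (mφ x y h1 h2 h3)) hL)
  obtain ⟨δ, hδ, hsm⟩ := exists_small (C := E b - E a) h.r_pos mE le_rfl
  refine (h.mult_U g' a b).eq_of_near (W := fun x y => U κ g (φ x) (φ y))
    ⟨fun _ _ _ _ _ => h.norm_U _ _ _, fun x y z h1 h2 h3 h4 =>
      h.U_mul g (mφ x y h1 h2 (h3.trans h4)) (mφ y z (h1.trans h2) h3 h4)⟩ hab mE
    (F := 2 * A) hδ (by simp only [h.U_self]) fun x y h1 h2 h3 h4 => ?_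
  have h5 := hsm x y h1 h2 h3 h4
  have d1 : 0 ≤ e' y - e' x := sub_nonneg.2 (m2 x y h2)
  have d2 : 0 ≤ e (φ y) - e (φ x) := sub_nonneg.2 (m1 _ _ (mφ x y h1 h2 h3))
  have dE : E y - E x = (e' y - e' x) + |L| * (e (φ y) - e (φ x)) := by simp only [E]; ring
  have hyx : 0 ≤ y - x := sub_nonneg.2 h2
  have b1 : (y - x) * (e' y - e' x) ≤ (y - x) * (E y - E x) :=
    mul_le_mul_of_nonneg_left (by rw [dE]; linarith [mul_nonneg hL d2]) hyx
  have b2 : (φ y - φ x) * (e (φ y) - e (φ x)) ≤ (y - x) * (E y - E x) := by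
    calc (φ y - φ x) * (e (φ y) - e (φ x)) ≤ (|L| * (y - x)) * (e (φ y) - e (φ x)) :=
          mul_le_mul_of_nonneg_right (lφ x y h1 h2 h3) d2
      _ = (y - x) * (|L| * (e (φ y) - e (φ x))) := by ring
      _ ≤ _ := mul_le_mul_of_nonneg_left (by rw [dE]; linarith) hyx
  have n1 := h.U_near he' heC' h2 ((Real.sqrt_le_sqrt b1).trans_lt h5)
  have n2 := h.U_near he heC (mφ x y h1 h2 h3) ((Real.sqrt_le_sqrt b2).trans_lt h5)
  rw [hc x h1 (h2.trans h3), hc y (h1.trans h2) h3] at n1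
  have hA := h.A_nonneg
  have n3 := norm_sub_le (U κ g' x y - κ (g (φ x)) (g (φ y)))
    (U κ g (φ x) (φ y) - κ (g (φ x)) (g (φ y)))
  rw [sub_sub_sub_cancel_right] at n3
  have n4 := mul_le_mul_of_nonneg_left b1 hA
  have n5 := mul_le_mul_of_nonneg_left b2 hA
  linarith

/-- The holonomy of a loop. -/
noncomputable def hol (κ : M → M → ℂ) (g : LM M) : ℂ := U κ (fn g) 0 1

/-- Loops of finite energy. -/
def Fin (g : LM M) : Prop := ∃ C, HasE (fn g) C

theorem Fin.of_mem {s : ℝ} {g : LM M} (h : g ∈ XE M s) : Fin g := ⟨_, h⟩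

theorem Fin.rot {g : LM M} (h : Fin g) (a : ℝ) : Fin (rot a g) := by
  obtain ⟨C, hC⟩ := h
  refine ⟨C, ?_⟩
  have := hC.rot a
  convert this using 1
  ext t
  simp

theorem Fin.rev {g : LM M} (h : Fin g) : Fin (rev g) := by
  obtain ⟨C, hC⟩ := h
  refine ⟨C, ?_⟩
  have := hC.rev
  convert this using 1
  ext t
  simp

theorem Fin.iter {g : LM M} (h : Fin g) (p : ℕ) : Fin (iter p g) := by
  obtain ⟨C, hC⟩ := h
  refine ⟨(p : ℝ) ^ 2 * C, ?_⟩
  have := hC.iter p
  convert this using 1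
  ext t
  simp

theorem Fin.reparam {g : LM M} (h : Fin g) {L : ℝ} {φ : ℝ → ℝ} (hφ : Rep L φ) :
    Fin (reparam hφ g) := by
  obtain ⟨C, hC⟩ := h
  exact ⟨_, hC.reparam hφ⟩

theorem Fin.cc {c : ℝ} (hc : 0 < c ∧ c < 1) {w g : LM M} (h : fn w 0 = fn g 0) (hw : Fin w)
    (hg : Fin g) : Fin (cc c w g) := by
  obtain ⟨B, hB⟩ := hw
  obtain ⟨C, hC⟩ := hg
  exact ⟨_, hasE_cc hc h hB hC⟩

theorem Ker.norm_hol (h : Ker κ A r) (g : LM M) : ‖hol κ g‖ = 1 := h.norm_U _ _ _

theorem Ker.U_add_nat (h : Ker κ A r) {g : LM M} (hg : Fin g) {a b : ℝ} (hab : a ≤ b) (n : ℕ) :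
    U κ (fn g) (a + n) (b + n) = U κ (fn g) a b := by
  obtain ⟨C, hC⟩ := hg
  refine (h.U_comp hC hC (φ := fun t => t + n) (L := 1) hab (fun x y _ hxy _ =>
    ⟨by linarith, by linarith⟩) fun x _ _ => ?_).symm
  have := (fn_periodic g).nat_mul n x
  rw [mul_one] at this
  exact this.symm

theorem Ker.U_window (h : Ker κ A r) {g : LM M} (hg : Fin g) (a : ℝ) :
    U κ (fn g) a (a + 1) = hol κ g := by
  -- reduce to `0 ≤ a ≤ 1`
  have key : ∀ a : ℝ, 0 ≤ a → a ≤ 1 → U κ (fn g) a (a + 1) = hol κ g := by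
    intro a h0 h1
    have e1 := h.U_mul (fn g) h1 (by linarith : (1 : ℝ) ≤ a + 1)
    have e2 := h.U_add_nat hg h0 1
    have e3 := h.U_mul (fn g) h0 h1
    simp only [Nat.cast_one, zero_add] at e2
    rw [← e1, e2, mul_comm, e3]
    rfl
  obtain ⟨n, hn⟩ : ∃ n : ℤ, 0 ≤ a - n ∧ a - n ≤ 1 :=
    ⟨⌊a⌋, sub_nonneg.2 (Int.floor_le a), by linarith [Int.lt_floor_add_one a]⟩
  have h1 := key (a - n) hn.1 hn.2
  rcases Int.eq_nat_or_neg n with ⟨k, hk | hk⟩
  · have e1 := h.U_add_nat hg (by linarith : a - n ≤ a - n + 1) k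
    rw [hk] at e1 h1
    rw [← h1, ← e1]
    push_cast
    congr 1 <;> ring
  · have e1 := h.U_add_nat hg (by linarith : a ≤ a + 1) k
    rw [hk] at h1
    rw [← h1, ← e1]
    push_cast
    congr 1 <;> ring

theorem Ker.hol_rot (h : Ker κ A r) {g : LM M} (hg : Fin g) (a : ℝ) :
    hol κ (rot a g) = hol κ g := by
  obtain ⟨C, hC⟩ := hg
  obtain ⟨C', hC'⟩ := Fin.rot ⟨C, hC⟩ a
  have e1 := h.U_comp hC hC' (φ := fun t => t + a) (L := 1) zero_le_one (fun x y _ hxy _ =>
    ⟨by linarith, by linarith⟩) fun x _ _ => fn_rot a g x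
  rw [← h.U_window ⟨C, hC⟩ a, hol, e1, zero_add, add_comm 1 a]

theorem Ker.hol_reparam (h : Ker κ A r) {g : LM M} (hg : Fin g) {L : ℝ} {φ : ℝ → ℝ}
    (hφ : Rep L φ) : hol κ (reparam hφ g) = hol κ g := by
  obtain ⟨C, hC⟩ := hg
  have e1 := h.U_comp hC (hC.reparam hφ) (φ := φ) (L := L) zero_le_one (fun x y _ hxy _ =>
    ⟨hφ.mono hxy, hφ.lip x y hxy⟩) fun x _ _ => rfl
  have e2 := hφ.add_one 0
  rw [zero_add] at e2
  rw [e2] at e1
  rw [← h.U_window ⟨C, hC⟩ (φ 0), ← e1]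
  rfl

theorem Ker.hol_iter (h : Ker κ A r) {g : LM M} (hg : Fin g) (p : ℕ) :
    hol κ (iter p g) = hol κ g ^ p := by
  have h0 : ∀ n : ℕ, U κ (fn g) 0 n = hol κ g ^ n := by
    intro n
    induction n with
    | zero => simp [h.U_self]
    | succ n ih =>
      have e1 := h.U_mul (fn g) (Nat.cast_nonneg n : (0 : ℝ) ≤ n) (by linarith : (n : ℝ) ≤ n + 1)
      rw [ih, h.U_window hg] at e1
      push_cast
      rw [← e1, pow_succ]
  obtain ⟨C, hC⟩ := hg
  obtain ⟨C', hC'⟩ := Fin.iter ⟨C, hC⟩ p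
  have e1 := h.U_comp hC hC' (φ := fun t => p * t) (L := p) zero_le_one (fun x y _ hxy _ =>
    ⟨mul_le_mul_of_nonneg_left hxy (Nat.cast_nonneg p), by linarith⟩) fun x _ _ => fn_iter p g x
  rw [hol, e1, mul_zero, mul_one, h0]

theorem Ker.hol_rev (h : Ker κ A r) {g : LM M} (hg : Fin g) :
    hol κ (rev g) = conj (hol κ g) := by
  have hgf := hg
  obtain ⟨C, hC⟩ := hg
  obtain ⟨e, he0, he, heC⟩ := hC.cert
  obtain ⟨C', hC'⟩ := Fin.rev ⟨C, hC⟩
  obtain ⟨e', he0', he', heC'⟩ := hC'.cert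
  have m1 : ∀ x y, x ≤ y → e x ≤ e y := fun x y hxy => (he x y).mono_fun le_rfl hxy le_rfl
  have m2 : ∀ x y, x ≤ y → e' x ≤ e' y := fun x y hxy => (he' x y).mono_fun le_rfl hxy le_rfl
  let E : ℝ → ℝ := fun t => e' t + - e (-t)
  have mE : ∀ x y : ℝ, (0 : ℝ) ≤ x → x ≤ y → y ≤ 1 → E x ≤ E y := fun x y _ h2 _ =>
    add_le_add (m2 x y h2) (neg_le_neg (m1 _ _ (neg_le_neg h2)))
  obtain ⟨δ, hδ, hsm⟩ := exists_small (C := E 1 - E 0) h.r_pos mE le_rfl
  have key := (h.mult_U (fn (rev g)) 0 1).eq_of_near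
    (W := fun x y => conj (U κ (fn g) (-y) (-x)))
    ⟨fun _ _ _ _ _ => by rw [RCLike.norm_conj, h.norm_U], fun x y z h1 h2 h3 h4 => by
      rw [← map_mul, mul_comm, h.U_mul (fn g) (neg_le_neg h3) (neg_le_neg h2)]⟩ zero_le_one mE
    (F := 2 * A) hδ (by simp [h.U_self]) fun x y h1 h2 h3 h4 => ?_
  · rw [hol, key]
    have e1 := h.U_window hgf (-1)
    norm_num at e1
    norm_num
    rw [e1]
  have h5 := hsm x y h1 h2 h3 h4
  have d1 : 0 ≤ e' y - e' x := sub_nonneg.2 (m2 x y h2)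
  have d2 : 0 ≤ e (-x) - e (-y) := sub_nonneg.2 (m1 _ _ (neg_le_neg h2))
  have dE : E y - E x = (e' y - e' x) + (e (-x) - e (-y)) := by simp only [E]; ring
  have hyx : 0 ≤ y - x := sub_nonneg.2 h2
  have b1 : (y - x) * (e' y - e' x) ≤ (y - x) * (E y - E x) :=
    mul_le_mul_of_nonneg_left (by rw [dE]; linarith) hyx
  have b2 : (-x - -y) * (e (-x) - e (-y)) ≤ (y - x) * (E y - E x) := by
    have : (-x - -y) = y - x := by ring
    rw [this]
    exact mul_le_mul_of_nonneg_left (by rw [dE]; linarith) hyx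
  have n1 := h.U_near he' heC' h2 ((Real.sqrt_le_sqrt b1).trans_lt h5)
  have n2 := h.U_near he heC (neg_le_neg h2) ((Real.sqrt_le_sqrt b2).trans_lt h5)
  rw [fn_rev, fn_rev] at n1
  have n2' : ‖conj (U κ (fn g) (-y) (-x)) - κ (fn g (-x)) (fn g (-y))‖ ≤
      A * ((-x - -y) * (e (-x) - e (-y))) := by
    rw [h.symm (fn g (-y)) (fn g (-x)), ← map_sub, RCLike.norm_conj]
    exact n2
  have hA := h.A_nonneg
  have n3 := norm_sub_le (U κ (fn (rev g)) x y - κ (fn g (-x)) (fn g (-y)))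
    (conj (U κ (fn g) (-y) (-x)) - κ (fn g (-x)) (fn g (-y)))
  rw [sub_sub_sub_cancel_right] at n3
  have n4 := mul_le_mul_of_nonneg_left b1 hA
  have n5 := mul_le_mul_of_nonneg_left b2 hA
  linarith

theorem Ker.hol_cst (h : Ker κ A r) (x : M) : hol κ (cst x) = 1 := by
  have h1 := h.tendsto_U (fn (cst x)) 0 1
  have h2 : ∀ n, Un κ (fn (cst x)) n 0 1 = 1 := by
    intro n
    simp [Un, h.self]
  simp only [h2] at h1
  exact tendsto_nhds_unique h1 tendsto_const_nhds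

theorem Ker.hol_cc (h : Ker κ A r) {c : ℝ} (hc : 0 < c ∧ c < 1) {w g : LM M}
    (h0 : fn w 0 = fn g 0) (hw : Fin w) (hg : Fin g) :
    hol κ (cc c w g) = hol κ w * hol κ g := by
  obtain ⟨B, hB⟩ := hw
  obtain ⟨C, hC⟩ := hg
  have hcc := hasE_cc hc h0 hB hC
  have hc' : 0 < 1 - c := sub_pos.2 hc.2
  have e1 := h.U_comp hB hcc (φ := fun t => t / c) (L := c⁻¹) hc.1.le (fun x y _ hxy _ =>
    ⟨by gcongr; exact hc.1.le, le_of_eq (by ring)⟩) fun x h1 h2 => fn_cc_left hc h0 h1 h2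
  have e2 := h.U_comp hC hcc (φ := fun t => (t - c) / (1 - c)) (L := (1 - c)⁻¹) hc.2.le
    (fun x y _ hxy _ => ⟨by gcongr, le_of_eq (by ring)⟩) fun x h1 h2 => fn_cc_right hc h0 h1 h2
  rw [zero_div, div_self hc.1.ne'] at e1
  rw [sub_self, zero_div, div_self hc'.ne'] at e2
  rw [hol, ← h.U_mul _ hc.1.le hc.2.le, e1, e2]
  rfl

/-- The holonomy is Lipschitz on `XE M s`. -/
theorem Ker.dist_hol_le (h : Ker κ A r) {s : ℝ} {g g' : LM M} (hg : g ∈ XE M s)
    (hg' : g' ∈ XE M s) (hd : dist g g' < r) :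
    ‖hol κ g - hol κ g'‖ ≤ 2 * A * dist g g' * Real.sqrt (2 * s ^ 2) := by
  obtain ⟨e, he0, he, heC⟩ := hg.cert
  obtain ⟨e', he0', he', heC'⟩ := hg'.cert
  have m1 : ∀ x y, x ≤ y → e x ≤ e y := fun x y hxy => (he x y).mono_fun le_rfl hxy le_rfl
  have m2 : ∀ x y, x ≤ y → e' x ≤ e' y := fun x y hxy => (he' x y).mono_fun le_rfl hxy le_rfl
  let E : ℝ → ℝ := fun t => e t + e' t
  have mE : ∀ x y : ℝ, (0 : ℝ) ≤ x → x ≤ y → y ≤ 1 → E x ≤ E y := fun x y _ h2 _ =>
    add_le_add (m1 x y h2) (m2 x y h2)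
  obtain ⟨δ, hδ, hsm⟩ := exists_small (C := E 1 - E 0) h.r_pos mE le_rfl
  let W : ℝ → ℝ → ℂ := fun x y => κ (fn g x) (fn g' x) * U κ (fn g') x y * κ (fn g' y) (fn g y)
  have hW : Mult W 0 1 :=
    ⟨fun x y _ _ _ => by simp only [W, norm_mul, h.norm_one, h.norm_U, mul_one],
      fun x y z h1 h2 h3 h4 => by
        simp only [W]
        rw [← h.U_mul (fn g') h2 h3]
        linear_combination (κ (fn g x) (fn g' x) * U κ (fn g') x y * U κ (fn g') y z *
          κ (fn g' z) (fn g z)) * h.mul_symm (fn g' y) (fn g y)⟩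
  have hA := h.A_nonneg
  have key := (h.mult_U (fn g) 0 1).compare hW zero_le_one mE (D := 2 * A * dist g g')
    (F := 2 * A) (by positivity) hδ (by simp only [W, h.U_self, mul_one, h.mul_symm])
    fun x y h1 h2 h3 h4 => ?_
  · have e1 : W 0 1 = hol κ g' := by
      simp only [W]
      rw [fn_one, fn_one, hol]
      linear_combination (U κ (fn g') 0 1) * h.mul_symm (fn g 0) (fn g' 0)
    have e2 : (1 - 0 : ℝ) * (E 1 - E 0) = 2 * s ^ 2 := by
      have := heC 0
      have := heC' 0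
      simp only [E, zero_add] at *
      linarith
    rw [e1, e2] at key
    exact key
  have h5 := hsm x y h1 h2 h3 h4
  have d1 : 0 ≤ e y - e x := sub_nonneg.2 (m1 x y h2)
  have d2 : 0 ≤ e' y - e' x := sub_nonneg.2 (m2 x y h2)
  have dE : E y - E x = (e y - e x) + (e' y - e' x) := by simp only [E]; ring
  have hyx : 0 ≤ y - x := sub_nonneg.2 h2
  have b1 : (y - x) * (e y - e x) ≤ (y - x) * (E y - E x) :=
    mul_le_mul_of_nonneg_left (by rw [dE]; linarith) hyx
  have b2 : (y - x) * (e' y - e' x) ≤ (y - x) * (E y - E x) :=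
    mul_le_mul_of_nonneg_left (by rw [dE]; linarith) hyx
  have s1 := (Real.sqrt_le_sqrt b1).trans_lt h5
  have s2 := (Real.sqrt_le_sqrt b2).trans_lt h5
  have n1 := h.U_near he heC h2 s1
  have n2 := h.U_near he' heC' h2 s2
  set X := fn g x
  set Y := fn g y
  set X' := fn g' x
  set Y' := fn g' y
  have q1 : dist X Y ≤ Real.sqrt ((y - x) * (E y - E x)) :=
    ((he x y).dist_le_sqrt le_rfl h2 le_rfl).trans (Real.sqrt_le_sqrt b1)
  have q2 : dist X' Y' ≤ Real.sqrt ((y - x) * (E y - E x)) :=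
    ((he' x y).dist_le_sqrt le_rfl h2 le_rfl).trans (Real.sqrt_le_sqrt b2)
  have q3 : dist X X' ≤ dist g g' := dist_fn_le g g' x
  have q4 : dist Y' Y ≤ dist g g' := by rw [dist_comm]; exact dist_fn_le g g' y
  -- the quadrilateral
  have t1 : ‖κ X X' * κ X' Y' - κ X Y'‖ ≤ A * dist X X' * dist X' Y' := by
    rw [h.norm_sub]
    exact h.area _ _ _ (q3.trans_lt hd) (q2.trans_lt h5)
  have t2 : ‖κ X Y' * κ Y' Y - κ X Y‖ ≤ A * dist Y' Y * dist Y X := by
    rw [h.norm_sub, show κ X Y' * κ Y' Y * κ Y X - 1 = κ Y' Y * κ Y X * κ X Y' - 1 by ring]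
    exact h.area _ _ _ (q4.trans_lt hd) (by rw [dist_comm]; exact q1.trans_lt h5)
  have t3 : ‖κ X X' * κ X' Y' * κ Y' Y - κ X Y‖ ≤
      2 * A * dist g g' * Real.sqrt ((y - x) * (E y - E x)) := by
    have e1 : κ X X' * κ X' Y' * κ Y' Y - κ X Y =
        (κ X X' * κ X' Y' - κ X Y') * κ Y' Y + (κ X Y' * κ Y' Y - κ X Y) := by ring
    rw [e1]
    refine (norm_add_le _ _).trans ?_
    rw [norm_mul, h.norm_one, mul_one]
    have r1 : A * dist X X' * dist X' Y' ≤
        A * dist g g' * Real.sqrt ((y - x) * (E y - E x)) := by gcongr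
    have r2 : A * dist Y' Y * dist Y X ≤
        A * dist g g' * Real.sqrt ((y - x) * (E y - E x)) := by
      rw [dist_comm Y X]
      gcongr
    linarith
  have t4 : ‖κ X X' * U κ (fn g') x y * κ Y' Y - κ X X' * κ X' Y' * κ Y' Y‖ ≤
      A * ((y - x) * (e' y - e' x)) := by
    have e1 : κ X X' * U κ (fn g') x y * κ Y' Y - κ X X' * κ X' Y' * κ Y' Y =
        κ X X' * (U κ (fn g') x y - κ X' Y') * κ Y' Y := by ring
    rw [e1, norm_mul, norm_mul, h.norm_one, h.norm_one, one_mul, mul_one]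
    exact n2
  have e1 : U κ (fn g) x y - W x y = (U κ (fn g) x y - κ X Y) -
      (κ X X' * κ X' Y' * κ Y' Y - κ X Y) -
      (κ X X' * U κ (fn g') x y * κ Y' Y - κ X X' * κ X' Y' * κ Y' Y) := by
    simp only [W]
    ring
  rw [e1]
  have n4 := mul_le_mul_of_nonneg_left b1 hA
  have n5 := mul_le_mul_of_nonneg_left b2 hA
  have := (norm_sub_le ((U κ (fn g) x y - κ X Y) - (κ X X' * κ X' Y' * κ Y' Y - κ X Y))
    (κ X X' * U κ (fn g') x y * κ Y' Y - κ X X' * κ X' Y' * κ Y' Y))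
  have := norm_sub_le (U κ (fn g) x y - κ X Y) (κ X X' * κ X' Y' * κ Y' Y - κ X Y)
  linarith

theorem Ker.continuousOn_hol (h : Ker κ A r) (s : ℝ) : ContinuousOn (hol κ) (XE M s) := by
  rw [Metric.continuousOn_iff]
  intro g hg ε hε
  have hA := h.A_nonneg
  set K : ℝ := 2 * A * Real.sqrt (2 * s ^ 2) + 1 with hK
  have hK0 : 0 < K := by positivity
  refine ⟨min r (ε / K), lt_min h.r_pos (by positivity), fun g' hg' hd => ?_⟩
  have h1 := h.dist_hol_le hg' hg (hd.trans_le (min_le_left _ _))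
  rw [dist_eq_norm]
  refine h1.trans_lt ?_
  have h2 : dist g' g < ε / K := hd.trans_le (min_le_right _ _)
  rw [lt_div_iff₀ hK0] at h2
  have h3 : 2 * A * dist g' g * Real.sqrt (2 * s ^ 2) ≤ dist g' g * K := by
    have : 0 ≤ dist g' g := dist_nonneg
    rw [hK]
    nlinarith
  linarith

end Vale.Agent.P216.L250
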